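import Vale.Agent.P042.Z.CPa

/-! # P042 O/CPg (TASK; helper names end with _ocg): the component through a fixed point in a domain.
Copy the proof of `cp_ex` (Z/CPa) with `E : K[X][X] →+* R`, `E g = (g.map (aeval x)).eval y`, and `E (Φ g) = φ (E g)` (induction on `g`, `hφ`, `hx`, `hy`). -/

namespace Vale.Agent.P042.S

open Finset Polynomial

theorem fac_ocg {K R : Type} [Field K] [CommRing R] [IsDomain R] (E : K[X][X] →+* R)
    (F : K[X][X]) : F ≠ 0 → E F = 0 → ∃ g, Irreducible g ∧ g ∣ F ∧ E g = 0 := by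
  induction F using WfDvdMonoid.induction_on_irreducible with
  | zero => exact fun h => absurd rfl h
  | unit u hu => exact fun _ h => absurd h (hu.map E).ne_zero
  | mul a i ha hi ih =>
    intro _ h
    rw [map_mul, mul_eq_zero] at h
    rcases h with h | h
    · exact ⟨i, hi, dvd_mul_right _ _, h⟩
    · obtain ⟨g, h1, h2, h3⟩ := ih ha h
      exact ⟨g, h1, h2.mul_left _, h3⟩

theorem cv_ocg {K R : Type} [Field K] [CommRing R] [IsDomain R] (E : K[X][X] →+* R) {H : K[X]}
    (h0 : 0 < H.natDegree) (h1 : E (H.map C + C H) = 0) : ∃ f, Cv H f ∧ E f = 0 := by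
  obtain ⟨n1, n2⟩ := nd_ito (C : K →+* K[X]) h0 H
  have hF : H.map C + C H ≠ 0 := ne_zero_of_natDegree_gt (n := 0) (by rwa [n1])
  obtain ⟨g, g1, g2, g3⟩ := fac_ocg E _ hF h1
  have hl : IsUnit (C H.leadingCoeff) :=
    isUnit_C.2 (leadingCoeff_ne_zero.2 (ne_zero_of_natDegree_gt h0)).isUnit
  have hd := leadingCoeff_dvd_leadingCoeff g2
  rw [n2] at hd
  obtain ⟨u, hu⟩ := isUnit_of_dvd_unit hd hl
  have hc : IsUnit (C ((u⁻¹ : K[X]ˣ) : K[X])) := isUnit_C.2 (Units.isUnit _)
  refine ⟨C ((u⁻¹ : K[X]ˣ) : K[X]) * g, ⟨monic_C_mul_of_mul_leadingCoeff_eq_one ?_,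
    (irreducible_isUnit_mul hc).2 g1, hc.mul_left_dvd.2 g2, h0⟩, ?_⟩
  · rw [← hu, Units.inv_mul]
  · rw [map_mul, g3, mul_zero]

theorem fix_ocg {K R : Type} [Field K] [CommRing R] (E : K[X][X] →+* R) (φ : K ≃+* K) {H : K[X]}
    (hH : H.map (φ : K →+* K) = H) (h2 : E ((derivative H).map C) ≠ 0) {f : K[X][X]} (h : Cv H f)
    (h3 : E f = 0) (e1 : E (f.map (mapRingHom (φ : K →+* K))) = 0) :
    f.map (mapRingHom (φ : K →+* K)) = f := by
  by_contra hne
  have hF : (H.map C + C H).map (mapRingHom (φ : K →+* K)) = H.map C + C H := by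
    rw [Polynomial.map_add, map_C, Polynomial.map_map, mapRingHom_comp_C, ← Polynomial.map_map,
      coe_mapRingHom, hH]
  have i1 : Irreducible (f.map (mapRingHom (φ : K →+* K))) :=
    (MulEquiv.irreducible_iff (mapEquiv (mapEquiv φ))).2 h.irr
  have d1 := Polynomial.map_dvd (mapRingHom (φ : K →+* K)) h.dvd
  rw [hF] at d1
  obtain ⟨q, hq⟩ := d1
  have d2 := h.dvd
  rw [hq] at d2
  rcases h.irr.prime.dvd_or_dvd d2 with d3 | ⟨q', rfl⟩
  · exact hne (eq_of_monic_of_associated h.mon (h.mon.map _) (h.irr.associated_of_dvd i1 d3)).symm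
  · have e2 := congrArg (fun P => E (derivative P)) hq
    simp only [derivative_add, derivative_C, add_zero, derivative_map,
      derivative_mul, map_add, map_mul, h3, e1, zero_mul, mul_zero] at e2
    exact h2 e2

theorem ev_ocg {K R : Type} [Field K] [CommRing R] [Algebra K R] (x y : R) (H : K[X]) :
    eval₂RingHom (eval₂RingHom (algebraMap K R) x) y (H.map C) = aeval y H := by
  have e : (eval₂RingHom (algebraMap K R) x).comp C = algebraMap K R :=
    RingHom.ext fun c => eval₂_C _ _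
  rw [coe_eval₂RingHom, eval₂_map, e, aeval_def]

theorem com_ocg {K R : Type} [Field K] [CommRing R] [Algebra K R] (ψ : K →+* K) (φ : R →+* R)
    (hφ : ∀ c, φ (algebraMap K R c) = algebraMap K R (ψ c)) {x y : R} (hx : φ x = x)
    (hy : φ y = y) : (eval₂RingHom (eval₂RingHom (algebraMap K R) x) y).comp
      (mapRingHom (mapRingHom ψ)) = φ.comp (eval₂RingHom (eval₂RingHom (algebraMap K R) x) y) := by
  refine ringHom_ext' (ringHom_ext (fun c => ?_) ?_) ?_
  · simp [hφ]
  · simp [hx]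
  · simp [hy]

theorem cp_gen {p : ℕ} [Fact p.Prime] {H₀ : (ZMod p)[X]} (h0 : 0 < H₀.natDegree) {R : Type}
    [CommRing R] [IsDomain R] [Algebra (KK p) R] (φ : R →+* R)
    (hφ : ∀ c : KK p, φ (algebraMap _ R c) = algebraMap _ R (c ^ p)) {x y : R} (hx : φ x = x)
    (hy : φ y = y) (h1 : aeval y (H₀.map (algebraMap (ZMod p) (KK p))) +
      aeval x (H₀.map (algebraMap (ZMod p) (KK p))) = 0)
    (h2 : aeval y (derivative (H₀.map (algebraMap (ZMod p) (KK p)))) ≠ 0) :
    ∃ f, Cv (H₀.map (algebraMap (ZMod p) (KK p))) f ∧ ∀ (x : ZMod p) (y : KK p),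
      On f (algebraMap _ (KK p) x) y → On f (algebraMap _ (KK p) x) (y ^ p) := by
  have hψ : ∀ x : ZMod p, frobeniusEquiv (KK p) p (algebraMap _ (KK p) x) = algebraMap _ _ x :=
    fun x => by rw [frobeniusEquiv_def, ← map_pow, ZMod.pow_card]
  have hinj := (algebraMap (ZMod p) (KK p)).injective
  obtain ⟨f, hf, h3⟩ := cv_ocg (eval₂RingHom (eval₂RingHom (algebraMap (KK p) R) x) y)
    (H := H₀.map (algebraMap (ZMod p) (KK p))) (by rwa [natDegree_map_eq_of_injective hinj])
    (by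
      rw [map_add, ev_ocg, coe_eval₂RingHom, eval₂_C, coe_eval₂RingHom, ← aeval_def]
      exact h1)
  have h6 := DFunLike.congr_fun (com_ocg (frobeniusEquiv (KK p) p : KK p →+* KK p) φ
    (fun c => by rw [hφ, RingHom.coe_coe, frobeniusEquiv_def]) hx hy) f
  rw [RingHom.comp_apply, RingHom.comp_apply, h3, map_zero, coe_mapRingHom] at h6
  have h4 := fix_ocg _ (frobeniusEquiv (KK p) p)
    (by rw [Polynomial.map_map]; exact congrArg (fun ψ => H₀.map ψ) (RingHom.ext hψ))
    (by rw [ev_ocg]; exact h2) hf h3 h6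
  refine ⟨f, hf, fun x y h => ?_⟩
  rw [on_zca] at h ⊢
  have h5 := map_mapRingHom_evalEval (frobeniusEquiv (KK p) p : KK p →+* KK p) f
    (algebraMap _ (KK p) x) y
  rwa [h4, h, map_zero, RingHom.coe_coe, hψ, frobeniusEquiv_def] at h5

end Vale.Agent.P042.S
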