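import Vale.Agent.P042.O.Defs

/-! # P042 O/Hen (TASK; helper names end with _ohe): simple roots over power series.
`HenselianRing.is_henselian` (`IsAdicComplete.henselianRing`, ideal `span {X}`) needs a monic polynomial.  Let `taylor a₀ P = ∑ i ≤ n, p i * T ^ i` with `n = natDegree P + 1`, `p 0 ∈ (X)`, `p 1` a unit.  `Q = W ^ n - C (p 1) * W ^ (n - 1) + ∑ i ∈ Icc 2 n, C ((-1) ^ i * p i * p 0 ^ (i - 1)) * W ^ (n - i)` is monic with the simple root `p 1` modulo `X`; for its root `w` (a unit: `isUnit_iff_constantCoeff`) and `T = -(p 0) * w⁻¹` we get `w ^ n * P.eval (a₀ + T) = p 0 * Q.eval w = 0`.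
A direct proof is as short: `y 0 = a₀`, `y (n + 1) = y n - C c⁻¹ * P.eval (y n)` with `c` the constant coefficient of `P' (a₀)`; `X ^ (n + 1) ∣ P.eval (y n)` (`binomExpansion`, `sub_dvd_eval_sub`), `a = mk fun n => coeff n (y n)`, `X ^ (n + 1) ∣ a - y n` (`X_pow_dvd_iff`). -/

namespace Vale.Agent.P042.S

open Finset Polynomial

theorem step_ohe {F : Type} [Field F] (P : (PowerSeries F)[X]) (a₀ y : PowerSeries F) (n : ℕ)
    (h2 : PowerSeries.constantCoeff ((derivative P).eval a₀) ≠ 0)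
    (hy : PowerSeries.X ∣ y - a₀ ∧ PowerSeries.X ^ (n + 1) ∣ P.eval y) :
    ∃ y', PowerSeries.X ^ (n + 1) ∣ y' - y ∧
      PowerSeries.X ∣ y' - a₀ ∧ PowerSeries.X ^ (n + 1 + 1) ∣ P.eval y' := by
  obtain ⟨c, hc⟩ : ∃ c : PowerSeries F,
      c = -PowerSeries.C (PowerSeries.constantCoeff ((derivative P).eval a₀))⁻¹ := ⟨_, rfl⟩
  have h3 : PowerSeries.X ^ (n + 1) ∣ c * P.eval y := hy.2.mul_left c
  have h4 : PowerSeries.X ∣ c * P.eval y := (dvd_pow_self _ n.succ_ne_zero).trans h3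
  have h5 : PowerSeries.X ∣ (derivative P).eval y - (derivative P).eval a₀ :=
    hy.1.trans (sub_dvd_eval_sub _ _ _)
  have h6 : PowerSeries.X ∣ 1 + (derivative P).eval y * c := by
    rw [PowerSeries.X_dvd_iff, map_sub, sub_eq_zero] at h5
    rw [PowerSeries.X_dvd_iff, map_add, map_mul, h5, hc, map_neg, PowerSeries.constantCoeff_C,
      map_one, mul_neg, mul_inv_cancel₀ h2, add_neg_cancel]
  refine ⟨y + c * P.eval y, by rwa [add_sub_cancel_left], ?_, ?_⟩
  · rw [add_sub_right_comm]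
    exact hy.1.add h4
  · obtain ⟨k, hk⟩ := P.binomExpansion y (c * P.eval y)
    have h7 : P.eval (y + c * P.eval y) =
        P.eval y * (1 + (derivative P).eval y * c) + c * P.eval y * (c * P.eval y) * k := by
      rw [hk]
      ring
    rw [h7, pow_succ]
    exact (mul_dvd_mul hy.2 h6).add ((mul_dvd_mul h3 h4).mul_right k)

theorem hen_gen {F : Type} [Field F] (P : (PowerSeries F)[X]) (a₀ : PowerSeries F)
    (h1 : PowerSeries.constantCoeff (P.eval a₀) = 0)
    (h2 : PowerSeries.constantCoeff ((derivative P).eval a₀) ≠ 0) :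
    ∃ a, P.eval a = 0 ∧ PowerSeries.constantCoeff a = PowerSeries.constantCoeff a₀ := by
  have h0 : PowerSeries.X ∣ a₀ - a₀ ∧ PowerSeries.X ^ (0 + 1) ∣ P.eval a₀ :=
    ⟨by rw [sub_self]; exact dvd_zero _, by rwa [zero_add, pow_one, PowerSeries.X_dvd_iff]⟩
  choose! g hg using fun n y => step_ohe P a₀ y n h2
  obtain ⟨y, y0, ys⟩ : ∃ y : ℕ → PowerSeries F, y 0 = a₀ ∧ ∀ n, y (n + 1) = g n (y n) :=
    ⟨fun n => Nat.rec a₀ g n, rfl, fun _ => rfl⟩
  have h3 : ∀ n, PowerSeries.X ∣ y n - a₀ ∧ PowerSeries.X ^ (n + 1) ∣ P.eval (y n) := by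
    intro n
    induction n with
    | zero => rwa [y0]
    | succ n ih =>
      rw [ys]
      exact (hg n _ ih).2
  have h4 : ∀ m n, m ≤ n → PowerSeries.X ^ (m + 1) ∣ y n - y m := by
    intro m n h
    induction n, h using Nat.le_induction with
    | base =>
      rw [sub_self]
      exact dvd_zero _
    | succ n h ih =>
      rw [← sub_add_sub_cancel _ (y n), ys]
      exact ((pow_dvd_pow _ (Nat.succ_le_succ h)).trans (hg n _ (h3 n)).1).add ih
  have h5 : ∀ n, PowerSeries.X ^ (n + 1) ∣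
      (PowerSeries.mk fun m => PowerSeries.coeff m (y m)) - y n := by
    intro n
    refine PowerSeries.X_pow_dvd_iff.2 fun m hm => ?_
    have h6 := PowerSeries.X_pow_dvd_iff.1 (h4 m n (Nat.le_of_lt_succ hm)) m m.lt_succ_self
    rw [map_sub, sub_eq_zero] at h6
    rw [map_sub, PowerSeries.coeff_mk, h6, sub_self]
  refine ⟨PowerSeries.mk fun m => PowerSeries.coeff m (y m), PowerSeries.ext fun n => ?_, ?_⟩
  · have h6 := ((h5 n).trans (sub_dvd_eval_sub _ _ P)).add (h3 n).2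
    rw [sub_add_cancel] at h6
    rw [PowerSeries.X_pow_dvd_iff.1 h6 n n.lt_succ_self, map_zero]
  · rw [← PowerSeries.coeff_zero_eq_constantCoeff_apply, PowerSeries.coeff_mk, y0,
      PowerSeries.coeff_zero_eq_constantCoeff_apply]

end Vale.Agent.P042.S
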