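import Vale.Agent.P042.O.CPg
import Vale.Agent.P042.Z.CPb
import Vale.Agent.P042.O.Hen

/-! # P042 O/CPo (TASK; helper names end with _oco): the component through a branch at a multiple root.
`branch_om`: `H = (X - C ρ) ^ e * U`, `U ρ ≠ 0` (`exists_eq_pow_rootMultiplicity_mul_and_not_dvd`); in `S = PowerSeries F`, `s = X`, `hen_gen` for `P = C (aeval (C ρ + s) U) + T ^ e * (U.map C).comp (C (C ρ) + C s * T)`, `a₀ = C ζ` (apply `constantCoeff` with `Polynomial.map`, `hom_eval₂`, `derivative_map`: `P.map constantCoeff = C (U ρ) + T ^ e * C (U ρ)`) gives `τ`, `y = C ρ + s * τ`.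
`cp_mult`: `branch_om` over `ZMod p` (`e ≤ natDegree < p`), map the branch to `R = PowerSeries (KK p)` by `PowerSeries.map (algebraMap _ _)`, `φ = PowerSeries.map (frobenius _ p)` (coefficients, `ZMod.pow_card`); `H' (y) ≠ 0`: `derivative H ≠ 0` (`der_ne`) splits (`Splits.eq_prod_roots`), and `y - C γ ≠ 0` since the coefficient `1` of `y` is `ζ ≠ 0`; `cp_gen`. -/

namespace Vale.Agent.P042.S

open Finset Polynomial

theorem cc_oco {F : Type} [Field F] (U : F[X]) (z : PowerSeries F) :
    PowerSeries.constantCoeff (aeval z U) = U.eval (PowerSeries.constantCoeff z) := by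
  have e : (PowerSeries.constantCoeff : PowerSeries F →+* F).comp
      (algebraMap F (PowerSeries F)) = RingHom.id F := by
    refine RingHom.ext fun c => ?_
    rw [RingHom.comp_apply, ← PowerSeries.C_eq_algebraMap, PowerSeries.constantCoeff_C,
      RingHom.id_apply]
  rw [aeval_def, hom_eval₂, e, eval₂_id]

theorem zne_oco {F : Type} [Field F] {ζ : F} {e : ℕ} (he : e ≠ 0) (hζ : ζ ^ e = -1) : ζ ≠ 0 := by
  rintro rfl
  rw [zero_pow he] at hζ
  exact one_ne_zero (neg_eq_zero.1 hζ.symm)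

theorem tau_oco {F : Type} [Field F] {U : F[X]} {ρ ζ : F} {e : ℕ} (hU : U.eval ρ ≠ 0)
    (he : (e : F) ≠ 0) (hζ : ζ ^ e = -1) :
    ∃ τ : PowerSeries F, PowerSeries.constantCoeff τ = ζ ∧
      aeval (PowerSeries.C ρ + PowerSeries.X : PowerSeries F) U +
        τ ^ e * aeval (PowerSeries.C ρ + PowerSeries.X * τ : PowerSeries F) U = 0 := by
  have he0 : e ≠ 0 := by
    rintro rfl
    exact he Nat.cast_zero
  have hz := zne_oco he0 hζ
  obtain ⟨τ, h1, h2⟩ := hen_gen
    (C (aeval (PowerSeries.C ρ + PowerSeries.X : PowerSeries F) U) +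
      X ^ e * (U.map (algebraMap F (PowerSeries F))).comp
        (C (PowerSeries.C ρ) + C PowerSeries.X * X)) (PowerSeries.C ζ)
    (by
      rw [eval_add, eval_C, eval_mul, eval_pow, eval_X, eval_comp, eval_map_algebraMap,
        eval_add, eval_C, eval_mul, eval_C, eval_X, map_add, map_mul, map_pow, cc_oco, cc_oco]
      simp only [map_add, map_mul, PowerSeries.constantCoeff_C, PowerSeries.constantCoeff_X,
        zero_mul, add_zero, hζ]
      ring)
    (by
      rw [derivative_add, derivative_C, zero_add, derivative_mul, derivative_X_pow,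
        derivative_comp, eval_add, eval_mul, eval_mul, eval_mul, eval_mul, eval_comp,
        eval_map_algebraMap, map_add, map_mul, map_mul, map_mul, map_mul, cc_oco]
      simp only [derivative_C, derivative_mul, derivative_X, zero_mul, zero_add,
        mul_one, eval_C, eval_add, eval_mul, eval_X, eval_pow, map_add, map_mul, map_pow,
        eval_natCast, map_natCast, PowerSeries.constantCoeff_C, PowerSeries.constantCoeff_X, add_zero, mul_zero]
      exact mul_ne_zero (mul_ne_zero he (pow_ne_zero _ hz)) hU)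
  refine ⟨τ, by rw [h2, PowerSeries.constantCoeff_C], ?_⟩
  rwa [eval_add, eval_C, eval_mul, eval_pow, eval_X, eval_comp, eval_map_algebraMap,
    eval_add, eval_C, eval_mul, eval_C, eval_X] at h1

theorem branch_om {F : Type} [Field F] {H : F[X]} (h0 : H ≠ 0) {ρ ζ : F}
    (he : ((H.rootMultiplicity ρ : ℕ) : F) ≠ 0) (hζ : ζ ^ H.rootMultiplicity ρ = -1) :
    ∃ y : PowerSeries F, PowerSeries.coeff 1 y = ζ ∧
      aeval y H + aeval (PowerSeries.C ρ + PowerSeries.X : PowerSeries F) H = 0 := by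
  obtain ⟨U, hU, hnd⟩ := exists_eq_pow_rootMultiplicity_mul_and_not_dvd H h0 ρ
  obtain ⟨τ, h1, h2⟩ := tau_oco (U := U) (ρ := ρ) (fun h => hnd (dvd_iff_isRoot.2 h)) he hζ
  refine ⟨PowerSeries.C ρ + PowerSeries.X * τ, ?_, ?_⟩
  · rw [map_add, PowerSeries.coeff_C, if_neg one_ne_zero, zero_add,
      show (1 : ℕ) = 0 + 1 from rfl, PowerSeries.coeff_succ_X_mul,
      PowerSeries.coeff_zero_eq_constantCoeff_apply, h1]
  · generalize H.rootMultiplicity ρ = e at hU h2
    rw [hU]
    simp only [map_mul, map_pow, map_sub, aeval_X, aeval_C, ← PowerSeries.C_eq_algebraMap,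
      add_sub_cancel_left]
    linear_combination PowerSeries.X ^ e * h2

theorem map_oco {p : ℕ} [Fact p.Prime] (H₀ : (ZMod p)[X]) (z : PowerSeries (ZMod p)) :
    aeval (PowerSeries.map (algebraMap (ZMod p) (KK p)) z) (H₀.map (algebraMap (ZMod p) (KK p))) =
      PowerSeries.map (algebraMap (ZMod p) (KK p)) (aeval z H₀) := by
  rw [aeval_def, aeval_def, eval₂_map, hom_eval₂, RingHom.ext_zmod
    ((algebraMap (KK p) (PowerSeries (KK p))).comp (algebraMap (ZMod p) (KK p)))]

theorem frob_oco {p : ℕ} [Fact p.Prime] (z : PowerSeries (ZMod p)) :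
    PowerSeries.map (frobenius (KK p) p) (PowerSeries.map (algebraMap (ZMod p) (KK p)) z) =
      PowerSeries.map (algebraMap (ZMod p) (KK p)) z := by
  refine PowerSeries.ext fun n => ?_
  rw [PowerSeries.coeff_map, PowerSeries.coeff_map, frobenius_def, ← map_pow, ZMod.pow_card]

theorem tr_oco {K : Type} [Field K] [IsAlgClosed K] {D : K[X]} (hD : D ≠ 0) {y : PowerSeries K}
    (hy : PowerSeries.coeff 1 y ≠ 0) : aeval y D ≠ 0 := by
  intro h
  have h1 : IsIntegral K y := IsAlgebraic.isIntegral ⟨D, hD, h⟩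
  obtain ⟨c, hc⟩ := minpoly.mem_range_of_degree_eq_one K y
    (IsAlgClosed.degree_eq_one_of_irreducible K (minpoly.irreducible h1))
  apply hy
  rw [← hc, ← PowerSeries.C_eq_algebraMap, PowerSeries.coeff_C, if_neg one_ne_zero]

theorem cp_mult {p : ℕ} [Fact p.Prime] {H₀ : (ZMod p)[X]} (h0 : 0 < H₀.natDegree)
    (hp : H₀.natDegree < p) {ρ ζ : ZMod p} (he : 0 < H₀.rootMultiplicity ρ)
    (hζ : ζ ^ H₀.rootMultiplicity ρ = -1) :
    ∃ f, Cv (H₀.map (algebraMap (ZMod p) (KK p))) f ∧ ∀ (x : ZMod p) (y : KK p),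
      On f (algebraMap _ (KK p) x) y → On f (algebraMap _ (KK p) x) (y ^ p) := by
  have hH : H₀ ≠ 0 := ne_zero_of_natDegree_gt h0
  have hle : H₀.rootMultiplicity ρ ≤ H₀.natDegree := by
    have h := natDegree_le_of_dvd (pow_rootMultiplicity_dvd H₀ ρ) hH
    rwa [natDegree_pow, natDegree_X_sub_C, mul_one] at h
  have hne : ((H₀.rootMultiplicity ρ : ℕ) : ZMod p) ≠ 0 := fun h =>
    (Nat.le_of_dvd he ((CharP.cast_eq_zero_iff (ZMod p) p _).1 h)).not_gt (hle.trans_lt hp)
  obtain ⟨y, h1, h2⟩ := branch_om hH hne hζ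
  have hd : (H₀.map (algebraMap (ZMod p) (KK p))).natDegree = H₀.natDegree := natDegree_map _
  refine cp_gen h0 (R := PowerSeries (KK p)) (PowerSeries.map (frobenius (KK p) p)) (fun c => ?_)
    (frob_oco (PowerSeries.C ρ + PowerSeries.X)) (frob_oco y) ?_ (tr_oco ?_ ?_)
  · rw [← PowerSeries.C_eq_algebraMap, ← PowerSeries.C_eq_algebraMap, PowerSeries.map_C,
      frobenius_def]
  · rw [map_oco, map_oco, ← map_add, h2, map_zero]
  · exact der_ne (p := p) (hd ▸ h0) (hd ▸ hp)
  · rw [PowerSeries.coeff_map, h1]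
    exact (_root_.map_ne_zero _).2 (zne_oco he.ne' hζ)

end Vale.Agent.P042.S
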