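import Vale.Agent.P042.O.Lift

/-! # P042 O/Cpx (TASK; helper names end with _ocx): all complex roots have odd multiplicity.
`fac_ex'`: copy the proof of `fac_ex` (O/Fac) and keep the extra information.
`om_cpx`: `ρ` a root modulo `p` (`hi p`), `fac_ex'`; `α` a complex root of `q` (`IsAlgClosed.exists_root`, `natDegree_map_eq_of_injective`); `bez_om` for `derivative q * g` (`q` is prime, `q ∤ derivative q` since `p ∣ q ρ`, `p ∤ q' ρ`) gives `q' α * g α ≠ 0`, so the multiplicity of `α` in `h` is `e` (`rootMultiplicity_mul`, `rootMultiplicity_pow` or induction, `one_lt_rootMultiplicity_iff_isRoot`, compare `mu_eq_one` in K/Mu; `0 < e` because `p ∣ h ρ`, `p ∤ g ρ`); `mr_of` with `N = 1`, `mult_of`, `ζ = -1`. -/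

namespace Vale.Agent.P042.S

open Finset Polynomial

theorem fac_ex' {h : ℤ[X]} (h0 : h ≠ 0) : ∃ p₀ : ℕ, ∀ p : ℕ, p.Prime → p₀ < p → ∀ ρ : ℤ,
    (p : ℤ) ∣ h.eval ρ → ∃ (q g : ℤ[X]) (e : ℕ), h = q ^ e * g ∧ (p : ℤ) ∣ q.eval ρ ∧
      ¬ (p : ℤ) ∣ (derivative q).eval ρ ∧ ¬ (p : ℤ) ∣ g.eval ρ ∧ Irreducible q ∧
      0 < q.natDegree := by
  classical
  choose! Δ h1 h2 using fun q : ℤ[X] => one_ofa (q := q) h0
  refine ⟨∑ q ∈ (UniqueFactorizationMonoid.factors h).toFinset, (Δ q).natAbs,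
    fun p hp hl ρ hr => ?_⟩
  have h3 : h.eval ρ ∣ ((UniqueFactorizationMonoid.factors h).map (eval ρ)).prod := by
    rw [← eval_multiset_prod]
    exact eval_dvd (UniqueFactorizationMonoid.factors_prod h0).symm.dvd
  obtain ⟨a, ha, h4⟩ := (Nat.prime_iff_prime_int.1 hp).exists_mem_multiset_dvd (hr.trans h3)
  obtain ⟨q, hq, rfl⟩ := Multiset.mem_map.1 ha
  have h5 := UniqueFactorizationMonoid.irreducible_of_factor q hq
  have h6 : (Δ q).natAbs ≤ ∑ q ∈ (UniqueFactorizationMonoid.factors h).toFinset, (Δ q).natAbs :=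
    single_le_sum (f := fun q => (Δ q).natAbs) (fun _ _ => Nat.zero_le _)
      (Multiset.mem_toFinset.2 hq)
  obtain ⟨g, e, h7, h8, h9⟩ := h2 q h5 p ρ (fun h7 => absurd
    (Nat.le_of_dvd (Int.natAbs_pos.2 (h1 q h5)) (Int.natCast_dvd.1 h7))
    (not_le.2 (h6.trans_lt hl))) h4
  refine ⟨q, g, e, h7, h4, h8, h9, h5, Nat.pos_of_ne_zero fun hd => h8 ?_⟩
  rw [derivative_eq_zero.2 hd, eval_zero]
  exact dvd_zero _

theorem mult_ocx {Q G : ℂ[X]} {α : ℂ} (e : ℕ) (h1 : Q.IsRoot α) (h2 : (derivative Q).eval α ≠ 0)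
    (h3 : G.eval α ≠ 0) : (Q ^ e * G).rootMultiplicity α = e := by
  obtain ⟨Q₁, rfl⟩ := dvd_iff_isRoot.2 h1
  have h4 : Q₁.eval α ≠ 0 := by simpa using h2
  have h5 : ¬ (Q₁ ^ e * G).IsRoot α := by
    rw [IsRoot.def, eval_mul, eval_pow]
    exact mul_ne_zero (pow_ne_zero _ h4) h3
  have h6 := rootMultiplicity_mul_X_sub_C_pow (p := Q₁ ^ e * G) (a := α) (n := e)
    fun h => h5 (by rw [h]; exact IsRoot.def.2 eval_zero)
  rw [rootMultiplicity_eq_zero h5, zero_add] at h6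
  rw [mul_pow, mul_assoc, mul_comm, h6]

theorem om_cpx {h : ℤ[X]} (h0 : h ≠ 0) (hi : ∀ q : ℕ, 1 ≤ q → ∃ t : ℤ, (q : ℤ) ∣ h.eval t)
    (ho : ∀ z : ℂ, (h.map (Int.castRingHom ℂ)).IsRoot z →
      Odd ((h.map (Int.castRingHom ℂ)).rootMultiplicity z)) : OM h := by
  obtain ⟨p₀, h1⟩ := fac_ex' h0
  refine ⟨p₀, fun p hp hl => ?_⟩
  have hP : Prime (p : ℤ) := Nat.prime_iff_prime_int.1 hp.out
  obtain ⟨ρ, hρ⟩ := hi p hp.out.one_le
  obtain ⟨q, g, e, rfl, c1, c2, c3, c4, c5⟩ := h1 p hp.out hl ρ hρ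
  have he := mult_of (mr_of (e := e) (N := 1) hp.out (by rwa [pow_one]) c2 c3)
  have e0 : e ≠ 0 := by
    rintro rfl
    rw [pow_zero, one_mul] at hρ
    exact c3 hρ
  obtain ⟨α, hα⟩ := IsAlgClosed.exists_root (q.map (Int.castRingHom ℂ)) (by
    rw [degree_map_eq_of_injective (RingHom.injective_int _)]
    exact (natDegree_pos_iff_degree_pos.1 c5).ne')
  obtain ⟨A, B, Δ, d1, d2⟩ := bz_ofa (r := derivative q * g) c4 fun hd =>
    (c4.prime.dvd_or_dvd hd).elim (fun h => c2 (c1.trans (eval_dvd h)))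
      fun h => c3 (c1.trans (eval_dvd h))
  have d3 := congrArg (fun P : ℤ[X] => (P.map (Int.castRingHom ℂ)).eval α) d2
  simp only [Polynomial.map_add, Polynomial.map_mul, eval_add, eval_mul, hα.eq_zero, mul_zero,
    zero_add, map_C, eval_C] at d3
  have d4 : ((derivative q).map (Int.castRingHom ℂ)).eval α *
      (g.map (Int.castRingHom ℂ)).eval α ≠ 0 := fun h => by
    rw [h, mul_zero] at d3
    exact d1 (Int.cast_eq_zero.1 ((eq_intCast _ Δ).symm.trans d3.symm))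
  have d5 := mult_ocx e hα (by rw [derivative_map]; exact left_ne_zero_of_mul d4)
    (right_ne_zero_of_mul d4)
  have d6 := ho α (by
    rw [IsRoot.def, Polynomial.map_mul, Polynomial.map_pow, eval_mul, eval_pow, hα.eq_zero,
      zero_pow e0, zero_mul])
  rw [Polynomial.map_mul, Polynomial.map_pow, d5] at d6
  refine ⟨ρ, -1, ?_, ?_⟩
  · rw [he]
    exact Nat.pos_of_ne_zero e0
  · rw [he]
    exact d6.neg_one_pow

end Vale.Agent.P042.S
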