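import Vale.Agent.P042.Z.Defs
import Vale.Agent.P042.T.DTw
import Vale.Agent.P042.T.Ball
import Vale.Agent.P042.T.Seq
import Vale.Agent.P042.T.Gw
import Vale.Agent.P042.K.GenB

/-! # P042 O/Defs: multiple roots (FROZEN, owner helper37).  Overview: notes/P042A.md. -/

namespace Vale.Agent.P042.S

open Finset Polynomial

noncomputable section

/-- A mixture of the weight `ω p` and of the classes of `z p`. -/
def DO (θ : ℕ → ℝ) (J : ℕ) (z : ℕ → ℤ) (ω : ℕ → ℤ → ℝ) (p i : ℕ) (n : ℤ) : ℝ :=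
  DT θ (fun _ => J) (z p) p i n + if i = 1 then (1 - θ p) * (ω p n - 1) else 0

/-- `D₁` at the primes up to `y`, `D₂` at the other primes. -/
def DN (y : ℕ) (D₁ D₂ : ℕ → ℕ → ℤ → ℝ) (p : ℕ) : ℕ → ℤ → ℝ := if p ≤ y then D₁ p else D₂ p

/-- `z` is a root of multiplicity `e` modulo `p ^ N`. -/
def MR (h : ℤ[X]) (p e N : ℕ) (z : ℤ) : Prop := ∃ u r : ℤ[X],
  taylor z h = X ^ e * u + C ((p : ℤ) ^ N) * r ∧ ¬ (p : ℤ) ∣ u.eval 0

/-- Modulo almost all primes there is a root whose multiplicity `e` makes `-1` an `e`-th power. -/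
def OM (h : ℤ[X]) : Prop := ∃ p₀ : ℕ, ∀ (p : ℕ) [Fact p.Prime], p₀ < p → ∃ ρ ζ : ZMod p,
  0 < (h.map (Int.castRingHom (ZMod p))).rootMultiplicity ρ ∧
    ζ ^ (h.map (Int.castRingHom (ZMod p))).rootMultiplicity ρ = -1

end

end Vale.Agent.P042.S
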