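import Vale.Agent.P042.O.Defs

/-! # P042 O/Fac (TASK; helper names end with _ofa): roots modulo large primes come from one irreducible factor.
`bez_om`: `R = ℤ[X] ⧸ span {q}` (or `AdjoinRoot q`) is a domain; easiest over `ℚ`: `q` is primitive (`Irreducible.isPrimitive`), irreducible over `ℚ` (`IsPrimitive.Int.irreducible_iff_irreducible_map_cast`), and `q ∤ r` over `ℚ` (if `q ∣ r` over `ℚ` then `q ∣ C d * r` over `ℤ` with `d ≠ 0`, `IsLocalization.integerNormalization`, `q` is prime and does not divide `C d` by degrees; or `IsPrimitive.dvd_of_fraction_map_dvd_fraction_map` with `primPart r`), `Irreducible.coprime_iff_not_dvd`, clear denominators as in Z/Srp.lean.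
`fac_ex`: for each `q` in `UniqueFactorizationMonoid.factors h` choose `Δ q ≠ 0`: for a constant `q = C c` take `c`; otherwise `h = q ^ e * g`, `q ∤ g` (`WfDvdMonoid.max_power_factor`), `q ∤ derivative q` (degrees, characteristic zero), `bez_om` for `r = derivative q * g`.  `p₀ = ∑ natAbs (Δ q)`; `factors_prod`, units of `ℤ[X]` are `C (± 1)` (`Polynomial.isUnit_iff`), `eval_multiset_prod`, `Prime.exists_mem_multiset_dvd`. -/

namespace Vale.Agent.P042.S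

open Finset Polynomial

theorem alg_ofa {q : ℤ[X]} (hq : q ≠ 0) (r : ℤ[X]) : IsAlgebraic ℤ (AdjoinRoot.mk q r) := by
  have h1 : IsAlgebraic ℤ (AdjoinRoot.root q) := ⟨q, hq, by simp⟩
  induction r using Polynomial.induction_on' with
  | add a b ha hb =>
    rw [map_add]
    exact ha.add hb
  | monomial n a =>
    rw [← C_mul_X_pow_eq_monomial, map_mul, map_pow, AdjoinRoot.mk_X, AdjoinRoot.mk_C]
    exact (isAlgebraic_algebraMap a).mul (h1.pow n)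

theorem bz_ofa {q r : ℤ[X]} (hq : Irreducible q) (hr : ¬ q ∣ r) :
    ∃ (A B : ℤ[X]) (Δ : ℤ), Δ ≠ 0 ∧ A * q + B * r = C Δ := by
  have := AdjoinRoot.isDomain_of_prime hq.prime
  obtain ⟨Δ, h1, t, h2⟩ := (alg_ofa hq.ne_zero r).exists_nonzero_dvd
    (mem_nonZeroDivisors_of_ne_zero fun h => hr (AdjoinRoot.mk_eq_zero.1 h))
  obtain ⟨B, rfl⟩ := AdjoinRoot.mk_surjective t
  rw [AdjoinRoot.algebraMap_eq, ← AdjoinRoot.mk_C, ← map_mul, AdjoinRoot.mk_eq_mk] at h2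
  obtain ⟨A, hA⟩ := h2
  exact ⟨A, B, Δ, h1, by linear_combination -hA⟩

theorem bez_om {q r : ℤ[X]} (hq : Irreducible q) (h0 : 0 < q.natDegree) (hr : ¬ q ∣ r) :
    ∃ (A B : ℤ[X]) (Δ : ℤ), Δ ≠ 0 ∧ A * q + B * r = C Δ := by
  have _ := h0
  exact bz_ofa hq hr

theorem one_ofa {h q : ℤ[X]} (h0 : h ≠ 0) (hq : Irreducible q) : ∃ Δ : ℤ, Δ ≠ 0 ∧
    ∀ p ρ : ℤ, ¬ p ∣ Δ → p ∣ q.eval ρ → ∃ (g : ℤ[X]) (e : ℕ), h = q ^ e * g ∧
      ¬ p ∣ (derivative q).eval ρ ∧ ¬ p ∣ g.eval ρ := by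
  by_cases hd : q.natDegree = 0
  · obtain ⟨c, rfl⟩ := natDegree_eq_zero.1 hd
    refine ⟨c, fun e => hq.ne_zero (by rw [e, C_0]), fun p ρ h1 h2 => (h1 ?_).elim⟩
    rwa [eval_C] at h2
  obtain ⟨e, g, h1, h2⟩ := WfDvdMonoid.max_power_factor h0 hq
  have h3 : ¬ q ∣ derivative q := fun h => by
    have h4 : derivative q ≠ 0 := fun e => hd (derivative_eq_zero.1 e)
    exact absurd (natDegree_le_of_dvd h h4) (not_le.2 (natDegree_derivative_lt hd))
  obtain ⟨A, B, Δ, h4, h5⟩ := bz_ofa (r := derivative q * g) hq fun h =>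
    (hq.prime.dvd_or_dvd h).elim h3 h1
  have h6 : ∀ ρ : ℤ, Δ = A.eval ρ * q.eval ρ +
      B.eval ρ * ((derivative q).eval ρ * g.eval ρ) := fun ρ => by
    rw [← eval_mul, ← eval_mul, ← eval_mul, ← eval_add, h5, eval_C]
  refine ⟨Δ, h4, fun p ρ h7 h8 => ⟨g, e, h2, fun h9 => h7 ?_, fun h9 => h7 ?_⟩⟩
  · rw [h6 ρ]
    exact dvd_add (h8.mul_left _) ((h9.mul_right _).mul_left _)
  · rw [h6 ρ]
    exact dvd_add (h8.mul_left _) ((h9.mul_left _).mul_left _)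

theorem fac_ex {h : ℤ[X]} (h0 : h ≠ 0) : ∃ p₀ : ℕ, ∀ p : ℕ, p.Prime → p₀ < p → ∀ ρ : ℤ,
    (p : ℤ) ∣ h.eval ρ → ∃ (q g : ℤ[X]) (e : ℕ), h = q ^ e * g ∧ (p : ℤ) ∣ q.eval ρ ∧
      ¬ (p : ℤ) ∣ (derivative q).eval ρ ∧ ¬ (p : ℤ) ∣ g.eval ρ := by
  classical
  choose! Δ h1 h2 using fun q : ℤ[X] => one_ofa (q := q) h0
  refine ⟨∑ q ∈ (UniqueFactorizationMonoid.factors h).toFinset, (Δ q).natAbs,
    fun p hp hl ρ hr => ?_⟩
  have h3 : h.eval ρ ∣ ((UniqueFactorizationMonoid.factors h).map (eval ρ)).prod := by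
    rw [← eval_multiset_prod]
    exact eval_dvd (UniqueFactorizationMonoid.factors_prod h0).symm.dvd
  obtain ⟨a, ha, h4⟩ := (Nat.prime_iff_prime_int.1 hp).exists_mem_multiset_dvd (hr.trans h3)
  obtain ⟨q, hq, rfl⟩ := Multiset.mem_map.1 ha
  have h5 := UniqueFactorizationMonoid.irreducible_of_factor q hq
  have h6 : (Δ q).natAbs ≤ ∑ q ∈ (UniqueFactorizationMonoid.factors h).toFinset, (Δ q).natAbs :=
    single_le_sum (f := fun q => (Δ q).natAbs) (fun _ _ => Nat.zero_le _)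
      (Multiset.mem_toFinset.2 hq)
  obtain ⟨g, e, h7, h8, h9⟩ := h2 q h5 p ρ (fun h7 => absurd
    (Nat.le_of_dvd (Int.natAbs_pos.2 (h1 q h5)) (Int.natCast_dvd.1 h7))
    (not_le.2 (h6.trans_lt hl))) h4
  exact ⟨q, g, e, h7, h4, h8, h9⟩

end Vale.Agent.P042.S
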