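import Vale.Agent.P042.O.Fac

/-! # P042 O/Lift (TASK; helper names end with _oli): lifting multiple roots.
`hen_om`: induction on `N` (`binomExpansion`; `q' z ≡ q' ρ` is invertible modulo `p`: `Prime.coprime_iff_not_dvd`).  `mr_of`: `taylor z q = X * q₁ + C (q z)` (`X_mul_divX_add`, `taylor_coeff_zero`, `taylor_coeff_one`), `sub_dvd_pow_sub_pow`, `taylor_mul`, `taylor_pow`, `u = q₁ ^ e * taylor z g`, `sub_dvd_eval_sub`.
`mult_of`: map `MR … 1` to `ZMod p`: `taylor ρ H = X ^ e * U`, `U 0 ≠ 0`; `rootMultiplicity_eq_rootMultiplicity`, `rootMultiplicity_mul`, `rootMultiplicity_X_sub_C_pow`, `rootMultiplicity_eq_zero`, `map_taylor`.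
`om_lift`: `fac_ex`; `ρ = (ρ₀.val : ℤ)`, `rootMultiplicity_pos'`, `eval_intCast_map`, `ZMod.intCast_zmod_eq_zero_iff_dvd`; `e ≤ natDegree h` (`natDegree_le_of_dvd` for `pow_rootMultiplicity_dvd`, `natDegree_map_le`). -/

namespace Vale.Agent.P042.S

open Finset Polynomial

theorem cong_oli {p a b : ℤ} (h : p ∣ a - b) (f : ℤ[X]) : p ∣ f.eval a ↔ p ∣ f.eval b :=
  dvd_iff_dvd_of_dvd_sub (h.trans (sub_dvd_eval_sub a b f))

theorem hen_om {q : ℤ[X]} {p : ℕ} (hp : p.Prime) {ρ : ℤ} (h1 : (p : ℤ) ∣ q.eval ρ)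
    (h2 : ¬ (p : ℤ) ∣ (derivative q).eval ρ) (N : ℕ) :
    ∃ z : ℤ, (p : ℤ) ∣ z - ρ ∧ (p : ℤ) ^ N ∣ q.eval z := by
  have hP : Prime (p : ℤ) := Nat.prime_iff_prime_int.1 hp
  have key : ∀ N : ℕ, ∃ z : ℤ, (p : ℤ) ∣ z - ρ ∧ (p : ℤ) ^ (N + 1) ∣ q.eval z := fun N => by
    induction N with
    | zero => exact ⟨ρ, by simp, by simpa using h1⟩
    | succ N ih =>
      obtain ⟨z, ⟨c, hc⟩, m, hm⟩ := ih
      obtain ⟨a, b, hab⟩ := hP.coprime_iff_not_dvd.2 fun h => h2 ((cong_oli ⟨c, hc⟩ _).1 h)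
      obtain ⟨k, hk⟩ := binomExpansion q z (-((p : ℤ) ^ (N + 1) * m * b))
      refine ⟨z + -((p : ℤ) ^ (N + 1) * m * b), ⟨c - p ^ N * m * b, by linear_combination hc⟩,
        m * a + k * p ^ N * m ^ 2 * b ^ 2, ?_⟩
      rw [hk, hm]
      linear_combination (-((p : ℤ) ^ (N + 1) * m)) * hab
  obtain ⟨z, a, b⟩ := key N
  exact ⟨z, a, (pow_dvd_pow _ (Nat.le_succ N)).trans b⟩

theorem mr_of {q g : ℤ[X]} {p e N : ℕ} (hp : p.Prime) {z : ℤ} (h1 : (p : ℤ) ^ N ∣ q.eval z)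
    (h2 : ¬ (p : ℤ) ∣ (derivative q).eval z) (h3 : ¬ (p : ℤ) ∣ g.eval z) :
    MR (q ^ e * g) p e N z := by
  have hP : Prime (p : ℤ) := Nat.prime_iff_prime_int.1 hp
  obtain ⟨m, hm⟩ := h1
  have h4 := X_mul_divX_add (taylor z q)
  rw [taylor_coeff_zero, hm, C_mul] at h4
  obtain ⟨r, hr⟩ := sub_dvd_pow_sub_pow (taylor z q) (X * divX (taylor z q)) e
  refine ⟨divX (taylor z q) ^ e * taylor z g, C m * r * taylor z g, ?_, fun h => ?_⟩
  · rw [taylor_mul, taylor_pow]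
    rw [mul_pow] at hr
    linear_combination taylor z g * hr - r * taylor z g * h4
  · rw [eval_mul, eval_pow, taylor_eval, zero_add, ← coeff_zero_eq_eval_zero, coeff_divX, zero_add,
      taylor_coeff_one] at h
    exact (hP.dvd_or_dvd h).elim (fun h => h2 (hP.dvd_of_dvd_pow h)) h3

theorem mult_of {h : ℤ[X]} {p e : ℕ} [Fact p.Prime] {z : ℤ} (hz : MR h p e 1 z) :
    (h.map (Int.castRingHom (ZMod p))).rootMultiplicity (z : ZMod p) = e := by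
  obtain ⟨u, r, h1, h2⟩ := hz
  have h3 := congrArg (Polynomial.map (Int.castRingHom (ZMod p))) h1
  have h4 : ¬ (u.map (Int.castRingHom (ZMod p))).IsRoot 0 := fun h => h2 (by
    have h5 := eval_intCast_map (Int.castRingHom (ZMod p)) u 0
    rw [Int.cast_zero, h.eq_zero] at h5
    exact (ZMod.intCast_zmod_eq_zero_iff_dvd _ p).1 h5.symm)
  rw [map_taylor, taylor_apply, Polynomial.map_add, Polynomial.map_mul, Polynomial.map_mul,
    Polynomial.map_pow, map_X, map_C, pow_one, map_natCast, ZMod.natCast_self, C_0, zero_mul,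
    add_zero, eq_intCast] at h3
  have h5 := rootMultiplicity_mul_X_sub_C_pow (p := u.map (Int.castRingHom (ZMod p))) (a := 0)
    (n := e) fun h => h4 (by rw [h]; exact IsRoot.def.2 eval_zero)
  rw [rootMultiplicity_eq_zero h4, zero_add, C_0, sub_zero] at h5
  rw [rootMultiplicity_eq_rootMultiplicity, h3, mul_comm, h5]

theorem om_lift {h : ℤ[X]} (h0 : h ≠ 0) (ho : OM h) : ∃ p₀ : ℕ, ∀ p : ℕ, p.Prime → p₀ < p →
    ∃ (e : ℕ) (ζ : ℤ), 0 < e ∧ e ≤ h.natDegree ∧ (p : ℤ) ∣ ζ ^ e + 1 ∧ ∀ N, ∃ z, MR h p e N z := by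
  obtain ⟨p₀, h1⟩ := fac_ex h0
  obtain ⟨p₁, h2⟩ := ho
  refine ⟨max p₀ p₁, fun p hp hl => ?_⟩
  have := Fact.mk hp
  obtain ⟨ρ, ζ, a, b⟩ := h2 p ((le_max_right _ _).trans_lt hl)
  obtain ⟨ρ, rfl⟩ := ZMod.intCast_surjective ρ
  obtain ⟨ζ, rfl⟩ := ZMod.intCast_surjective ζ
  obtain ⟨a1, a2⟩ := rootMultiplicity_pos'.1 a
  have a3 : (p : ℤ) ∣ h.eval ρ := (ZMod.intCast_zmod_eq_zero_iff_dvd _ p).1
    ((eval_intCast_map (Int.castRingHom (ZMod p)) h ρ).symm.trans a2)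
  obtain ⟨q, g, e, rfl, c1, c2, c3⟩ := h1 p hp ((le_max_left _ _).trans_lt hl) ρ a3
  have he := mult_of (mr_of (e := e) (N := 1) hp (by rwa [pow_one]) c2 c3)
  have hd := natDegree_le_of_dvd (pow_rootMultiplicity_dvd _ (ρ : ZMod p)) a1
  rw [he] at a b hd
  rw [(monic_X_sub_C _).natDegree_pow, natDegree_X_sub_C, mul_one] at hd
  refine ⟨e, ζ, a, hd.trans natDegree_map_le, ?_, fun N => ?_⟩
  · exact (ZMod.intCast_zmod_eq_zero_iff_dvd _ p).1 (by push_cast; rw [b, neg_add_cancel])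
  · obtain ⟨z, d1, d2⟩ := hen_om hp c1 c2 N
    exact ⟨z, mr_of hp d2 (fun h => c2 ((cong_oli d1 _).1 h)) fun h => c3 ((cong_oli d1 _).1 h)⟩

end Vale.Agent.P042.S
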