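import Vale.Agent.P042.O.Defs

/-! # P042 O/Real (TASK; helper names end with _ore): the means over the classes of a multiple root are real.
`real_om`: strong induction on `s`, for all `r`.  `s = 0`: `av_triv_qo`-like (`ph … 1 n = 1`).  `s = 1`: modulo `p`, `g (ζ n) ≡ -g n`, `ζ` is prime to `p` (`0 < e`), `sum_perm` with `m = ζ`, `n = 0`, so the mean equals its conjugate (model `real_og` in S/OddG; `Complex.conj_eq_iff_real`).
`s + 2`: `1 = ω n + (1 / p) * (if p ∣ n - 0 then p else 0)` with `ω n = if p ∣ n then 0 else 1`; `kill_gen` (`g' n ≡ e c n ^ (e - 1)` modulo `p`), `av_dvd`; `g (p n) = p ^ e * g₁ n`, `g₁ = X ^ e * (C c + C p * r.comp (C p * X))`; if `s + 2 ≤ e` the phase is `1` (`ph_congr` with `a' = 0`, `av_const`), otherwise `ph g a (p ^ (s + 2)) (p n) = ph g₁ a (p ^ (s + 2 - e)) n` (unfold `ph`, `field_simp`) and `av_mul`, `ph_per`.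
`gb_real`: `h (z + x) = (taylor z h).eval x` (`taylor_eval`), `u = C (u.eval 0) + X * divX u` (`X_mul_divX_add`, `coeff_zero_eq_eval_zero`), so `h (z + p ^ i n) ≡ p ^ (i e) * g n` modulo `p ^ j` with `g = X ^ e * (C c + C p * r')`, `r' = C (p ^ (i - 1)) * X * (divX u).comp (C (p ^ i) * X)`; cases `j ≤ i e`, `i e < j` as above. -/

namespace Vale.Agent.P042.S

open Finset Polynomial

theorem red_ore {p : ℕ} (hp : 0 < p) {h g : ℤ[X]} {m : ℤ → ℤ} {a : ℤ} {j t : ℕ}
    (H : ∀ n, (p : ℤ) ^ j ∣ h.eval (m n) - (p : ℤ) ^ t * g.eval n)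
    (hg : ∀ s, s + t = j → ∃ x : ℝ, av (p ^ s) (ph g a (p ^ s)) = x) :
    ∃ x : ℝ, (av (p ^ j) fun n => ph h a (p ^ j) (m n)) = x := by
  rcases le_total j t with h1 | h1
  · have h2 : ∀ n, ph h a (p ^ j) (m n) = 1 := fun n => one_qu (by
      have h3 := (H n).add ((pow_dvd_pow (p : ℤ) h1).mul_right (g.eval n))
      rw [sub_add_cancel] at h3
      exact_mod_cast h3.mul_left a)
    exact ⟨1, by simp only [h2, av_const (pow_pos hp j), Complex.ofReal_one]⟩
  · obtain ⟨s, rfl⟩ := Nat.exists_eq_add_of_le' h1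
    have h2 : ∀ n, ph h a (p ^ (s + t)) (m n) = ph g a (p ^ s) n := fun n => by
      rw [ph_congr (h' := g) (a' := a * (p : ℤ) ^ t) (n' := n)]
      · have h3 : (p : ℝ) ≠ 0 := Nat.cast_ne_zero.2 hp.ne'
        refine congrArg ee ?_
        push_cast
        field_simp
        ring
      · rw [mul_assoc, ← mul_sub]
        exact_mod_cast (H n).mul_left a
    simp only [h2]
    rw [pow_add, av_mul (ph_per g a _) (pow_pos hp t)]
    exact hg s rfl

theorem real_om {p e : ℕ} (hp : p.Prime) (h0 : 0 < e) (he : e < p) {ζ : ℤ} (hζ : (p : ℤ) ∣ ζ ^ e + 1)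
    {c : ℤ} (hc : ¬ (p : ℤ) ∣ c) {a : ℤ} (ha : IsCoprime a p) (s : ℕ) (r : ℤ[X]) :
    ∃ x : ℝ, av (p ^ s) (ph (X ^ e * (C c + C (p : ℤ) * r)) a (p ^ s)) = x := by
  have hp' := Nat.prime_iff_prime_int.1 hp
  obtain ⟨e, rfl⟩ := Nat.exists_eq_add_of_le' h0
  induction s using Nat.strong_induction_on generalizing r with
  | _ s ih =>
  obtain ⟨g, hg⟩ : ∃ g, g = X ^ (e + 1) * (C c + C (p : ℤ) * r) := ⟨_, rfl⟩
  rw [← hg]
  rcases s with _ | _ | s
  · exact ⟨1, by rw [pow_zero, av_triv_qo, Complex.ofReal_one]⟩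
  · obtain ⟨k, hk⟩ := hζ
    rw [zero_add, pow_one]
    refine Complex.conj_eq_iff_real.1 ?_
    have h1 : IsCoprime ζ (p : ℤ) := ⟨-ζ ^ e, k, by linear_combination -hk⟩
    rw [av, map_div₀, map_sum, map_natCast]
    conv_rhs => rw [← sum_perm (ph_per g a p) h1 0]
    refine congrArg (· / (p : ℂ)) (sum_congr rfl fun n _ => ?_)
    rw [ph_congr (n := 0 + ζ * n) (h' := g) (a' := -a) (n' := n)]
    · simp only [ph]
      rw [← ee_neg]
      push_cast
      ring_nf
    · refine ⟨a * (n : ℤ) ^ (e + 1) * (k * c + ζ ^ (e + 1) * r.eval (ζ * n) + r.eval (n : ℤ)), ?_⟩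
      simp only [hg, zero_add, eval_mul, eval_pow, eval_X, eval_add, eval_C]
      linear_combination a * (n : ℤ) ^ (e + 1) * c * hk
  · have h1 := kill_gen (g := g) hp (ω := fun n => if (p : ℤ) ∣ n then 0 else 1)
      (fun n => by simp only [dvd_add_left (dvd_refl (p : ℤ))]) (fun n hn => if_pos (by
        have h2 : (derivative g).eval n = ((e + 1 : ℕ) : ℤ) * n ^ e * c +
            p * (((e + 1 : ℕ) : ℤ) * n ^ e * r.eval n + n ^ (e + 1) * (derivative r).eval n) := by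
          simp only [hg, derivative_mul, derivative_X_pow, derivative_add, derivative_C, eval_mul,
            eval_pow, eval_X, eval_add, eval_C, eval_zero, Nat.add_sub_cancel]
          ring
        rw [h2, dvd_add_left (dvd_mul_right _ _)] at hn
        rcases hp'.dvd_or_dvd ((hp'.dvd_or_dvd hn).resolve_right hc) with h3 | h3
        · exact absurd (Nat.le_of_dvd h0 (Int.natCast_dvd_natCast.1 h3)) he.not_ge
        · exact hp'.dvd_of_dvd_pow h3)) s ha
    have h2 := av_dvd (ph_per g a (p ^ (s + 2))) hp.pos (dvd_pow_self p (Nat.succ_ne_zero _)) 0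
    obtain ⟨x, hx⟩ := red_ore hp.pos (h := g) (m := fun n => 0 + p * n) (a := a) (j := s + 2)
      (t := e + 1) (g := X ^ (e + 1) * (C c + C (p : ℤ) * r.comp (C (p : ℤ) * X)))
      (fun n => ⟨0, by
        simp only [hg, zero_add, eval_mul, eval_pow, eval_X, eval_add, eval_C, eval_comp]
        ring⟩) fun s' hs' => ih s' (by omega) _
    have h3 : (p : ℂ) ≠ 0 := Nat.cast_ne_zero.2 hp.ne_zero
    refine ⟨x / p, ?_⟩
    rw [Complex.ofReal_div, Complex.ofReal_natCast, ← hx, ← h2, div_eq_mul_inv, ← mul_av]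
    refine Eq.trans ?_ (add_eq_right.2 h1)
    rw [av, av, av, ← add_div, ← sum_add_distrib]
    refine congrArg (· / _) (sum_congr rfl fun n _ => ?_)
    rw [sub_zero]
    split_ifs
    · rw [Complex.ofReal_zero]
      field_simp
      ring
    · simp

theorem gb_real {h : ℤ[X]} {p e N j i : ℕ} (hp : p.Prime) (h0 : 0 < e) (he : e < p) {ζ : ℤ}
    (hζ : (p : ℤ) ∣ ζ ^ e + 1) {z : ℤ} (hz : MR h p e N z) (hj : j ≤ N) (hi : 1 ≤ i) {a : ℤ}
    (ha : IsCoprime a p) : ∃ x : ℝ, Gb h z a p j i = x := by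
  obtain ⟨u, r, h1, h2⟩ := hz
  obtain ⟨i, rfl⟩ := Nat.exists_eq_add_of_le' hi
  refine red_ore hp.pos (t := (i + 1) * e) (g := X ^ e * (C (u.eval 0) + C (p : ℤ) *
    (C ((p : ℤ) ^ i) * X * (divX u).comp (C ((p : ℤ) ^ (i + 1)) * X)))) (fun n => ?_)
    fun s _ => real_om hp h0 he hζ h2 ha s _
  have h3 := congrArg (eval ((p : ℤ) ^ (i + 1) * n)) (X_mul_divX_add u)
  rw [add_comm z, ← taylor_eval, h1, Nat.cast_pow]
  refine ((pow_dvd_pow (p : ℤ) hj).mul_right (r.eval ((p : ℤ) ^ (i + 1) * n))).trans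
    (dvd_of_eq ?_)
  simp only [eval_mul, eval_pow, eval_X, eval_add, eval_C, eval_comp, coeff_zero_eq_eval_zero]
    at h3 ⊢
  rw [← h3]
  ring

end Vale.Agent.P042.S
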