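import Vale.Agent.P042.O.Defs

/-! # P042 O/Seq (TASK; helper names end with _ose): the local sum is a nonnegative real number.
Induction on `j` gives `∑ i ≤ j, t i = (1 - θ) κ + ∑ i ∈ Ico 1 j, θ ^ i (1 - θ) G i + θ ^ j G j` for `j ≥ 1`; it is real.  Put `G' i = G i - (if m ≤ i then 1 else 0)`; the sum is `θ ^ m + (1 - θ) κ + ∑ i ∈ Ico 1 m, θ ^ i (1 - θ) G i`, and `θ ^ i * 2 (θ ^ 2) ^ (m - i) = 2 θ ^ m θ ^ (m - i)`, `∑ i ∈ Ico 1 m, θ ^ (m - i) ≤ 2 θ` (induction on `m`, `θ ≤ 1 / 2`).  So the sum `S` has `|S - θ ^ m| ≤ (4 + B) θ ^ (m + 1) ≤ θ ^ m / 2`, `0 ≤ S ≤ 1`; `Sec` with `s = S`.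
Norms: `‖G i‖ ≤ 2 (θ ^ 2) ^ (m - i)` for all `i` (natural subtraction); `t i = 0` for `i > m`; for `1 ≤ i ≤ m` the first part of `t i` is at most `4 θ ^ m θ ^ (m - i)`.  Compare `seq_sec` in T/Seq. -/

namespace Vale.Agent.P042.S

open Finset Polynomial

theorem geo_ose {θ : ℝ} (h0 : 0 ≤ θ) (h1 : θ ≤ 1 / 2) (k : ℕ) :
    ∑ j ∈ range k, θ ^ (k - 1 - j) ≤ 2 := by
  rw [sum_range_reflect (fun j => θ ^ j) k]
  induction k with
  | zero => simp
  | succ k ih =>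
    rw [geom_sum_succ]
    nlinarith

theorem tel_ose (θ : ℂ) (G : ℕ → ℂ) (k : ℕ) :
    G 0 + ∑ i ∈ range k, θ ^ (i + 1) * (G (i + 1) - G i) =
      θ ^ k * G k + (1 - θ) * ∑ i ∈ range k, θ ^ i * G i := by
  induction k with
  | zero => simp
  | succ k ih =>
    rw [sum_range_succ, ← add_assoc, ih, sum_range_succ]
    ring

theorem seq_om {θ B κ : ℝ} (h0 : 0 ≤ θ) (hB : 0 ≤ B) (h1 : (8 + 2 * B) * θ ≤ 1) {G t : ℕ → ℂ}
    {m j : ℕ} (hm : 1 ≤ m) (hj : m ≤ j) (g1 : ∀ i, m ≤ i → G i = 1)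
    (g2 : ∀ i, i < m → ‖G i‖ ≤ 2 * (θ ^ 2) ^ (m - i)) (g3 : ∀ i, 1 ≤ i → ∃ x : ℝ, G i = x)
    (hκ : |κ| ≤ B * θ ^ (m + 1)) (t0 : t 0 = G 0)
    (t1 : t 1 = (θ : ℂ) * (G 1 - G 0) + (1 - (θ : ℂ)) * (κ - G 0))
    (t2 : ∀ i, i + 2 ≤ j → t (i + 2) = (θ : ℂ) ^ (i + 2) * (G (i + 2) - G (i + 1))) :
    Sec 1 0 (∑ i ∈ range (j + 1), t i) ∧ ∑ i ∈ range (j + 1), ‖t i‖ ≤ (12 + B) * θ ^ m := by
  have hBθ : 0 ≤ B * θ := mul_nonneg hB h0
  have h8 : θ ≤ 1 / 8 := by linarith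
  have p0 : 0 ≤ θ ^ 2 := by positivity
  have p1 : θ ^ 2 ≤ 1 := pow_le_one₀ h0 (by linarith)
  have pm : 0 ≤ θ ^ m := by positivity
  have nθ : ∀ k, ‖(θ : ℂ) ^ k‖ = θ ^ k := fun k => by rw [norm_pow, Complex.norm_of_nonneg h0]
  have hG : ∀ i k, i + k ≤ m → ‖G i‖ ≤ 2 * (θ ^ 2) ^ k := fun i k h => by
    rcases lt_or_ge i m with h2 | h2
    · exact (g2 i h2).trans
        (mul_le_mul_of_nonneg_left (pow_le_pow_of_le_one p0 p1 (by omega)) two_pos.le)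
    · rw [g1 i h2, show k = 0 by omega, norm_one, pow_zero]
      norm_num
  have hz : ∀ i, m ≤ i → (θ : ℂ) ^ (i + 1) * (G (i + 1) - G i) = 0 := fun i hi => by
    rw [g1 i hi, g1 (i + 1) (by omega), sub_self, mul_zero]
  obtain ⟨n, rfl⟩ : ∃ n, j = n + 1 := ⟨j - 1, by omega⟩
  have e1 : ∑ i ∈ range n, t (i + 1 + 1) =
      ∑ i ∈ range n, (θ : ℂ) ^ (i + 1 + 1) * (G (i + 1 + 1) - G (i + 1)) :=
    sum_congr rfl fun i hi => t2 i (by have := mem_range.1 hi; omega)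
  have e2 : ∑ i ∈ range n, ‖t (i + 1 + 1)‖ =
      ∑ i ∈ range n, ‖(θ : ℂ) ^ (i + 1 + 1) * (G (i + 1 + 1) - G (i + 1))‖ :=
    sum_congr rfl fun i hi => congrArg _ (t2 i (by have := mem_range.1 hi; omega))
  have a2 : ‖(1 - θ : ℂ)‖ ≤ 1 := by
    rw [← Complex.ofReal_one, ← Complex.ofReal_sub, Complex.norm_of_nonneg (by linarith)]
    simpa using h0
  constructor
  · have e3 : ∑ i ∈ range (n + 1 + 1), t i = G 0 +
        ∑ i ∈ range (n + 1), (θ : ℂ) ^ (i + 1) * (G (i + 1) - G i) + (1 - θ) * (κ - G 0) := by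
      rw [sum_range_succ', sum_range_succ', e1, t0, sum_range_succ' _ n, zero_add, t1]
      ring
    rw [e3, ← sum_subset (range_subset_range.2 hj) fun i _ hi => hz i (by simpa using hi),
      tel_ose, g1 m le_rfl]
    obtain ⟨l, rfl⟩ : ∃ l, m = l + 1 := ⟨m - 1, by omega⟩
    choose x hx using fun i => g3 (i + 1) (Nat.le_add_left 1 i)
    have b1 : |∑ i ∈ range l, θ ^ (i + 1) * x i| ≤ 2 * θ ^ (l + 1) * θ * 2 := by
      refine (abs_sum_le_sum_abs _ _).trans ((sum_le_sum fun i hi => ?_).trans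
        ((mul_sum _ _ _).symm.trans_le
          (mul_le_mul_of_nonneg_left (geo_ose h0 (by linarith) l) (by positivity))))
      obtain ⟨k, rfl⟩ := Nat.exists_eq_add_of_lt (mem_range.1 hi)
      have b2 := hG (i + 1) (k + 1) (by omega)
      rw [hx, Complex.norm_real, Real.norm_eq_abs] at b2
      rw [show i + k + 1 - 1 - i = k by omega, abs_mul, abs_of_nonneg (by positivity)]
      exact (mul_le_mul_of_nonneg_left b2 (by positivity)).trans_eq (by ring)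
    obtain ⟨R, hR⟩ : ∃ R, R = κ + ∑ i ∈ range l, θ ^ (i + 1) * x i := ⟨_, rfl⟩
    have b3 : |R| ≤ θ ^ (l + 1) / 2 := by
      have b4 := abs_add_le κ (∑ i ∈ range l, θ ^ (i + 1) * x i)
      have b5 := mul_le_mul_of_nonneg_left h1 pm
      rw [pow_succ θ (l + 1)] at hκ
      rw [hR]
      nlinarith
    have b4 : |(1 - θ) * R| ≤ θ ^ (l + 1) / 2 := by
      rw [abs_mul, abs_of_nonneg (by linarith)]
      exact (mul_le_of_le_one_left (abs_nonneg R) (by linarith)).trans b3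
    have b5 : θ ^ (l + 1) ≤ θ := pow_le_of_le_one h0 (by linarith) (by omega)
    obtain ⟨b6, b7⟩ := abs_le.1 b4
    refine Or.inr ⟨θ ^ (l + 1) + (1 - θ) * R, by linarith, by linarith, ?_⟩
    rw [sub_self, zero_mul, norm_le_zero_iff, sum_range_succ', hR]
    simp only [hx]
    push_cast
    ring
  · have e3 : ∑ i ∈ range (n + 1 + 1), ‖t i‖ ≤ ‖G 0‖ +
        ∑ i ∈ range (n + 1), ‖(θ : ℂ) ^ (i + 1) * (G (i + 1) - G i)‖ + ‖(1 - θ) * (κ - G 0)‖ := by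
      rw [sum_range_succ', sum_range_succ', e2, t0, sum_range_succ' _ n, zero_add, t1, pow_one]
      linarith [norm_add_le ((θ : ℂ) * (G 1 - G 0)) ((1 - θ) * (κ - G 0))]
    rw [← sum_subset (range_subset_range.2 hj) fun i _ hi => by
      rw [hz i (by simpa using hi), norm_zero]] at e3
    have a1 : ∑ i ∈ range m, ‖(θ : ℂ) ^ (i + 1) * (G (i + 1) - G i)‖ ≤ 4 * θ ^ m * 2 := by
      refine (sum_le_sum fun i hi => ?_).trans ((mul_sum _ _ _).symm.trans_le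
        (mul_le_mul_of_nonneg_left (geo_ose h0 (by linarith) m) (by positivity)))
      obtain ⟨l, rfl⟩ := Nat.exists_eq_add_of_lt (mem_range.1 hi)
      rw [show i + l + 1 - 1 - i = l by omega]
      exact (norm_mul_le_of_le (nθ (i + 1)).le (norm_sub_le_of_le (hG (i + 1) l (by omega))
        (hG i l (by omega)))).trans_eq (by ring)
    have a3 := hG 0 m (by omega)
    have a4 : (θ ^ 2) ^ m ≤ θ ^ m :=
      pow_le_pow_left₀ p0 (pow_le_of_le_one h0 (by linarith) two_ne_zero) m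
    have a5 : ‖(1 - θ) * (κ - G 0)‖ ≤ 1 * (|κ| + ‖G 0‖) :=
      norm_mul_le_of_le a2 (norm_sub_le_of_le (by rw [Complex.norm_real, Real.norm_eq_abs]) le_rfl)
    have a6 : B * θ ^ (m + 1) ≤ B * θ ^ m :=
      mul_le_mul_of_nonneg_left (pow_le_pow_of_le_one h0 (by linarith) (by omega)) hB
    linarith

end Vale.Agent.P042.S
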