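import Vale.Agent.P042.O.Lw
import Vale.Agent.P042.O.Real
import Vale.Agent.P042.O.Seq

/-! # P042 O/Loc (TASK; helper names end with _olo): large primes.
`c₀` from `ball k`, `c = min c₀ (1 / 4) / 2`, `θ = p ^ (-c)`, `θ ^ 2 = p ^ (-(2 c)) ≥ p ^ (-c₀), p ^ (-1 / 4)`.  `Nat.sum_divisors_prime_pow`, `tm`, `gw_powW`, `hD`.  `j = 0`: the sum is `Gb … 0 0 = 1` (`DO_tm`, `sec_one`).
`j ≥ 1`: `p ^ j ∣ h z` (`MR`, evaluate at `0`, `taylor_eval`, `0 < e`); `m` from `ball`, `p ^ j ≤ |lead| p ^ (k m) < p ^ (k m + 1)`, so `j ≤ k m` and `1 ≤ m`; `κ` from `hω` for `j = 1` (then `m = 1`), `κ = 0` from `kill_gen` for `j ≥ 2`; `gb_real`, `DO_tm`, `seq_om`; `θ ^ m = p ^ (-(c m)) ≤ (p ^ j) ^ (-(c / k))`. -/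

namespace Vale.Agent.P042.S

open Finset Polynomial

theorem dvd_olo {h : ℤ[X]} {p e J j : ℕ} {z : ℤ} (he : 0 < e) (hz : MR h p e J z) (hj : j ≤ J) :
    ((p ^ j : ℕ) : ℤ) ∣ h.eval z := by
  obtain ⟨u, r, h1, -⟩ := hz
  have h2 := congrArg (eval 0) h1
  rw [taylor_eval, zero_add, eval_add, eval_mul, eval_mul, eval_pow, eval_X, zero_pow he.ne',
    zero_mul, zero_add, eval_C] at h2
  rw [h2, Nat.cast_pow]
  exact (pow_dvd_pow _ hj).mul_right _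

theorem le_olo {p j n : ℕ} {l : ℤ} (hp : p.Prime) (hl : |l| < p)
    (h : (p : ℤ) ^ j ≤ |l| * (p : ℤ) ^ n) : j ≤ n := by
  have h1 : (1 : ℤ) < p := by exact_mod_cast hp.one_lt
  have h2 : (p : ℤ) ^ j < (p : ℤ) ^ (n + 1) := by
    rw [pow_succ']
    exact h.trans_lt (mul_lt_mul_of_pos_right hl (by positivity))
  exact Nat.lt_succ_iff.1 ((pow_lt_pow_iff_right₀ h1).1 h2)

theorem sq_olo {x c d : ℝ} (hx : 1 ≤ x) (h : 2 * c ≤ d) : x ^ (-d) ≤ (x ^ (-c)) ^ 2 := by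
  rw [← Real.rpow_natCast, ← Real.rpow_mul (zero_le_one.trans hx)]
  refine Real.rpow_le_rpow_of_exponent_le hx ?_
  push_cast
  linarith

theorem pw_olo {p j k m : ℕ} {c : ℝ} (hp : 1 ≤ p) (hc : 0 < c) (hk : 1 ≤ k) (h : j ≤ k * m) :
    ((p : ℝ) ^ (-c)) ^ m ≤ ((p ^ j : ℕ) : ℝ) ^ (-(c / k)) := by
  have h1 : (1 : ℝ) ≤ p := by exact_mod_cast hp
  have h0 : (0 : ℝ) ≤ p := zero_le_one.trans h1
  have h2 : (0 : ℝ) < k := by exact_mod_cast hk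
  have h3 : (j : ℝ) ≤ k * m := by exact_mod_cast h
  rw [Nat.cast_pow, ← Real.rpow_natCast, ← Real.rpow_natCast, ← Real.rpow_mul h0,
    ← Real.rpow_mul h0]
  refine Real.rpow_le_rpow_of_exponent_le h1 ?_
  have h4 : (j : ℝ) * (c / k) ≤ c * m := by
    rw [← mul_div_assoc, div_le_iff₀ h2]
    nlinarith
  linarith

theorem loc_om (k : ℕ) : ∃ c : ℝ, 0 < c ∧ ∀ h : ℤ[X], 1 ≤ h.natDegree → h.natDegree ≤ k →
    ∀ (D : ℕ → ℕ → ℤ → ℝ), LW D → ∀ p : ℕ, p.Prime → ∀ (θ : ℕ → ℝ) (J : ℕ) (z : ℕ → ℤ)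
      (ω : ℕ → ℤ → ℝ) (B : ℝ) (e : ℕ) (ζ : ℤ), D p = DO θ J z ω p → θ p = (p : ℝ) ^ (-c) → 0 ≤ B →
      (8 + 2 * B) * (p : ℝ) ^ (-c) ≤ 1 → |h.leadingCoeff| < p → 0 < e → e < p →
      (p : ℤ) ∣ ζ ^ e + 1 → MR h p e J (z p) → Function.Periodic (ω p) (p : ℤ) →
      (∀ n, (p : ℤ) ∣ (derivative h).eval n → ω p n = 0) →
      (∀ a : ℤ, IsCoprime a p → ∃ κ : ℝ, |κ| ≤ B * (p : ℝ) ^ (-(1 / 4) : ℝ) ∧
        (av p fun n => ω p n * ph h a p n) = κ) →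
      ∀ (j : ℕ) (a : ℤ), j ≤ J → IsCoprime a p →
        Sec 1 0 (∑ d ∈ (p ^ j).divisors, tm h D (p ^ j) a d) ∧ (0 < j →
          ∑ d ∈ (p ^ j).divisors, ‖tm h D (p ^ j) a d‖ ≤
            (12 + B) * ((p ^ j : ℕ) : ℝ) ^ (-(c / k))) := by
  obtain ⟨c₀, hc0, -, hball⟩ := ball k
  have hcp : 0 < min c₀ (1 / 4) / 2 := half_pos (lt_min hc0 (by norm_num))
  have hc1 : 2 * (min c₀ (1 / 4) / 2) ≤ c₀ := by linarith [min_le_left c₀ (1 / 4)]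
  have hc2 : 2 * (min c₀ (1 / 4) / 2) ≤ 1 / 4 := by linarith [min_le_right c₀ (1 / 4)]
  refine ⟨min c₀ (1 / 4) / 2, hcp, ?_⟩
  generalize min c₀ (1 / 4) / 2 = c at hcp hc1 hc2
  intro h hd1 hdk D hL p hp θ J z ω B e ζ hD hθ hB hBθ hl he0 hep hζ hz hper hvan hω j a hj ha
  have hp1 : (1 : ℝ) ≤ p := by exact_mod_cast hp.one_le
  have hθ0 : 0 ≤ θ p := by rw [hθ]; positivity
  obtain ⟨m, hmj, g1, g2, g4⟩ := hball h hd1 hdk p hp j (z p) a (dvd_olo he0 hz hj) ha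
  have hjm : j ≤ k * m := le_olo hp hl g4
  have ht : ∀ i, tm h D (p ^ j) a (p ^ i) =
      av (p ^ j) fun n => DO θ J z ω p i n * ph h a (p ^ j) n := by
    intro i
    simp only [tm, gw_powW hL hp, hD]
  obtain ⟨t0, t1, t2⟩ := DO_tm (h := h) (θ := θ) (z := z) (ω := ω) hp hj a
  rw [Nat.sum_divisors_prime_pow hp, Nat.sum_divisors_prime_pow hp]
  simp only [ht]
  rcases Nat.eq_zero_or_pos j with rfl | hj0
  · refine ⟨?_, fun h0 => absurd h0 (lt_irrefl 0)⟩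
    rw [zero_add, sum_range_one, t0, g1 0 hmj]
    exact sec_one 0
  have hm : 1 ≤ m := by
    rcases Nat.eq_zero_or_pos m with rfl | h0
    · omega
    · exact h0
  obtain ⟨κ, hκ, hκ'⟩ : ∃ κ : ℝ, |κ| ≤ B * θ p ^ (m + 1) ∧
      (av (p ^ j) fun n => ω p n * ph h a (p ^ j) n) = κ := by
    obtain rfl | h2 : j = 1 ∨ 2 ≤ j := by omega
    · obtain ⟨κ, k1, k2⟩ := hω a ha
      obtain rfl : m = 1 := le_antisymm hmj hm
      refine ⟨κ, k1.trans (mul_le_mul_of_nonneg_left ?_ hB), by rw [pow_one]; exact k2⟩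
      rw [hθ]
      exact sq_olo hp1 hc2
    · obtain ⟨i, rfl⟩ := Nat.exists_eq_add_of_le' h2
      refine ⟨0, by rw [abs_zero]; positivity, ?_⟩
      rw [kill_gen hp hper hvan i ha, Complex.ofReal_zero]
  have key := seq_om (G := fun i => Gb h (z p) a p j i)
    (t := fun i => av (p ^ j) fun n => DO θ J z ω p i n * ph h a (p ^ j) n) hθ0 hB
    (by rw [hθ]; exact hBθ) hm hmj g1
    (fun i hi => (g2 i hi).trans (mul_le_mul_of_nonneg_left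
      (pow_le_pow_left₀ (by positivity) (by rw [hθ]; exact sq_olo hp1 hc1) _) zero_le_two))
    (fun i hi => gb_real hp he0 hep hζ hz hj hi ha) hκ t0 (by rw [← hκ']; exact t1 hj0) t2
  refine ⟨key.1, fun _ => key.2.trans (mul_le_mul_of_nonneg_left ?_ (by positivity))⟩
  rw [hθ]
  exact pw_olo hp.one_le hcp (hd1.trans hdk) hjm

end Vale.Agent.P042.S
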