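import Vale.Agent.P042.Z.SymW
import Vale.Agent.P042.O.CPo

/-! # P042 O/SymO: the symmetric weights from a multiple root (copy of `symG_all`). -/

namespace Vale.Agent.P042.S

open Finset Polynomial

theorem symG_om (k : ℕ) (hk : 0 < k) : ∃ (C₁ : ℝ) (p₀ : ℕ), ∀ (p : ℕ) [Fact p.Prime], p₀ ≤ p →
    ∀ H : (ZMod p)[X], H.natDegree = k → ∀ ρ ζ : ZMod p, 0 < H.rootMultiplicity ρ →
      ζ ^ H.rootMultiplicity ρ = -1 → SymG H C₁ := by
  obtain ⟨C₁, p₁, c1, h1⟩ := pl k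
  obtain ⟨C₂, p₂, c2, h2⟩ := pu k
  obtain ⟨B, hB⟩ : ∃ B : ℝ, B = C₁ + C₂ + 2 * (k : ℝ) ^ 2 + 1 := ⟨_, rfl⟩
  have k2 : (0 : ℝ) ≤ (k : ℝ) ^ 2 := sq_nonneg _
  have B1 : 1 ≤ B := by linarith
  refine ⟨6 * B ^ 2, max (k + 1) (max (max p₁ p₂) ⌈(2 * B) ^ 2⌉₊), fun p _ hp H hH ρ ζ r0 r1 => ?_⟩
  have hkp : H.natDegree < p := by
    rw [hH]
    exact le_of_max_le_left hp
  replace hp := le_of_max_le_right hp
  rw [max_le_iff, max_le_iff, Nat.ceil_le] at hp
  have hs : 2 * B ≤ √p := Real.le_sqrt_of_sq_le hp.2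
  have h0 : 0 < H.natDegree := by rw [hH]; exact hk
  have hd : derivative H ≠ 0 := der_ne h0 hkp
  obtain ⟨f, hf, hF⟩ := cp_mult h0 hkp r0 r1
  have l1 := h1 p hp.1.1 _ f (by rw [natDegree_map, hH]) hf hF
  obtain ⟨T, t1, t2⟩ := h2 p hp.1.2 H f hH hf
  obtain ⟨Q, hQ⟩ : ∃ Q : Finset (ZMod p × ZMod p), Q = (CP f).filter fun P =>
    (derivative H).eval P.1 ≠ 0 ∧ (derivative H).eval P.2 ≠ 0 := ⟨_, rfl⟩
  have q1 : Q ⊆ CP f := by rw [hQ]; exact filter_subset _ _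
  have q2 : (CP f).card ≤ Q.card + (k ^ 2 + k ^ 2) := by
    have a1 := crit_zsw h0 hd ((CP f).filter fun P => (derivative H).eval P.1 = 0) Prod.fst Prod.snd
      (fun _ _ => Prod.ext) (fun P hP => val_zsw hf (mem_filter.1 hP).1) fun P hP =>
        (mem_filter.1 hP).2
    have a2 := crit_zsw h0 hd ((CP f).filter fun P => (derivative H).eval P.2 = 0) Prod.snd Prod.fst
      (fun _ _ a b => Prod.ext b a)
      (fun P hP => by rw [val_zsw hf (mem_filter.1 hP).1, neg_neg]) fun P hP => (mem_filter.1 hP).2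
    rw [hH] at a1 a2
    refine (card_le_card (t := Q ∪ (((CP f).filter fun P => (derivative H).eval P.1 = 0) ∪
      (CP f).filter fun P => (derivative H).eval P.2 = 0)) fun P hP => ?_).trans
      ((card_union_le _ _).trans (Nat.add_le_add_left ((card_union_le _ _).trans
        (Nat.add_le_add a1 a2)) _))
    rw [hQ, mem_union, mem_union, mem_filter, mem_filter, mem_filter]
    by_cases b1 : (derivative H).eval P.1 = 0
    · exact Or.inr (Or.inl ⟨hP, b1⟩)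
    by_cases b2 : (derivative H).eval P.2 = 0
    · exact Or.inr (Or.inr ⟨hP, b2⟩)
    exact Or.inl ⟨hP, b1, b2⟩
  have q3 : ((CP f).card : ℝ) ≤ Q.card + ((k : ℝ) ^ 2 + (k : ℝ) ^ 2) := by exact_mod_cast q2
  have q4 : Q.card = ∑ v, (Q.filter fun P => H.eval P.1 = v).card :=
    card_eq_sum_card_fiberwise (s := Q) (t := univ) (f := fun P => H.eval P.1) fun _ _ =>
      mem_coe.2 (mem_univ _)
  have s1 : 1 ≤ √p := by linarith
  refine sym_zsw (μ := fun v => ((Q.filter fun P => H.eval P.1 = v).card : ℝ)) B1 hs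
    (fun v => ⟨Nat.cast_nonneg _, ?_⟩) ?_ (T := T) (by linarith) (fun t ht => ?_) fun v hv => ?_
  · have a := fib_zsw h0 (fun P hP => val_zsw hf (q1 hP)) v
    rw [hH] at a
    have a' : ((Q.filter fun P => H.eval P.1 = v).card : ℝ) ≤ (k : ℝ) ^ 2 := by exact_mod_cast a
    linarith
  · rw [← Nat.cast_sum, ← q4, hB]
    nlinarith [mul_le_mul_of_nonneg_left s1 k2, mul_nonneg c2 (Real.sqrt_nonneg (p : ℝ))]
  · have a : ((∑ v, (Q.filter fun P => H.eval P.1 = v).card *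
        (Q.filter fun P => H.eval P.1 = v + t).card : ℕ) : ℝ) ≤ (CQ H f t).card :=
      Nat.cast_le.2 (cor_zsw H q1 t)
    push_cast at a
    have a' : C₂ * √p ≤ B * √p := mul_le_mul_of_nonneg_right (by linarith) (Real.sqrt_nonneg _)
    linarith [t2 t ht]
  · obtain ⟨P, hP⟩ := card_ne_zero.1 (Nat.cast_ne_zero.1 hv)
    rw [mem_filter] at hP
    have a := hP.1
    rw [hQ, mem_filter] at a
    exact ⟨⟨P.1, hP.2, a.2.1⟩, P.2, by rw [val_zsw hf a.1, hP.2], a.2.2⟩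

end Vale.Agent.P042.S
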