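import Vale.Agent.P042.V.GlobV
import Vale.Agent.P042.Z.Good
import Vale.Agent.P042.O.SymO
import Vale.Agent.P042.O.Loc
import Vale.Agent.P042.O.Lift

/-! # P042 O/Glob: the singular series lies in a sector (model: V/GlobV). -/

namespace Vale.Agent.P042.S

open Finset Polynomial

theorem globO {η : ℝ} (h0 : 0 < η) (h1 : η ≤ 1) {h : ℤ[X]} (hk : 1 ≤ h.natDegree)
    (hint : ∀ q : ℕ, 1 ≤ q → ∃ t : ℤ, (q : ℤ) ∣ h.eval t) (ho : OM h) :
    ∃ A : ℕ, ∀ L : ℕ, 1 ≤ L →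
      ∃ R : ℕ, 2 ^ L ≤ R ∧ R ≤ 2 ^ (A * L ^ 1) ∧ ∀ E : ℕ, ∃ w, Ser h η (2 * (1 / 2) ^ L) R E w := by
  obtain ⟨c, Λ, hc, hc1, hΛ, hloc⟩ := locT h.natDegree
  obtain ⟨c₀, hc₀, hbig⟩ := loc_om h.natDegree
  obtain ⟨B, p₀, hsym⟩ := symG_om h.natDegree hk
  have hl0 : h.leadingCoeff ≠ 0 := fun e => by
    rw [leadingCoeff_eq_zero.1 e, natDegree_zero] at hk
    omega
  obtain ⟨p₂, hlift⟩ := om_lift (leadingCoeff_ne_zero.1 hl0) ho
  obtain ⟨p₁, hom⟩ := ho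
  have hkR : (1 : ℝ) ≤ h.natDegree := by exact_mod_cast hk
  obtain ⟨c', hce⟩ : ∃ c' : ℝ, c' = c₀ / h.natDegree := ⟨_, rfl⟩
  have hc' : 0 < c' := by rw [hce]; positivity
  have hcc : c' ≤ c₀ := by rw [hce]; exact div_le_self hc₀.le hkR
  obtain ⟨y, y3, ym, hy'⟩ := bigV hc' B (12 + 2 * B ^ 2)
    (p₀ + p₁ + p₂ + h.leadingCoeff.natAbs + h.natDegree)
  have hω : ∀ p : ℕ, ∃ (ω : ℤ → ℝ) (e : ℕ) (ζ : ℤ), Function.Periodic ω (p : ℤ) ∧
      (p.Prime → ∑ t ∈ range p, ω t = p ∧ ∀ n, 0 ≤ ω n ∧ ω n ≤ p) ∧ (p.Prime → y < p →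
        (∀ n, (p : ℤ) ∣ (derivative h).eval n → ω n = 0) ∧
        (∀ a : ℤ, IsCoprime a p → ∃ κ : ℝ, |κ| ≤ B ^ 2 * (p : ℝ) ^ (-(1 / 4) : ℝ) ∧
          (av p fun n => ω n * ph h a p n) = κ) ∧ 0 < e ∧ e < p ∧ (p : ℤ) ∣ ζ ^ e + 1 ∧
        ∀ N, ∃ z, MR h p e N z) := fun p => by
    by_cases hp : p.Prime ∧ y < p
    · have := Fact.mk hp.1
      have e3 : (h.map (Int.castRingHom (ZMod p))).natDegree = h.natDegree := by
        refine natDegree_map_of_leadingCoeff_ne_zero _ fun e => ?_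
        have e4 := (ZMod.intCast_zmod_eq_zero_iff_dvd _ p).1 e
        have e5 := Nat.le_of_dvd (Int.natAbs_pos.2 hl0) (Int.natCast_dvd.1 e4)
        omega
      obtain ⟨ρ, ζ₀, r1, r2⟩ := hom p (by omega)
      obtain ⟨b1, ω, w1, w2, w3, w4, w5⟩ := good3g (hsym p (by omega) _ e3 ρ ζ₀ r1 r2)
      obtain ⟨e, ζ, l1, l2, l3, l4⟩ := hlift p hp.1 (by omega)
      have hBp : B ≤ p := (le_self_pow₀ b1 (by norm_num)).trans (hy' p hp.2).1
      exact ⟨ω, e, ζ, w1, fun _ => ⟨w2, fun n => ⟨(w3 n).1, (w3 n).2.trans hBp⟩⟩,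
        fun _ _ => ⟨w4, w5, l1, by omega, l3, l4⟩⟩
    · refine ⟨fun _ => 1, 0, 0, fun _ => rfl, fun a => ⟨by simp, fun _ => ⟨zero_le_one, ?_⟩⟩,
        fun a b => absurd ⟨a, b⟩ hp⟩
      exact Nat.one_le_cast.2 a.one_le
  choose ω ee ζ ω1 ω3 ω2 using hω
  obtain ⟨τ, t0, t1, t2, A, hA⟩ := parV hc (half_pos hc') hΛ h0 y3
  refine ⟨A, fun L hL => ?_⟩
  obtain ⟨b, J, hb, b1, t3, hAe⟩ := hA L hL
  refine ⟨y.factorial ^ J * 2 ^ b, (Nat.pow_le_pow_right two_pos hb).trans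
    (Nat.le_mul_of_pos_left _ (pow_pos y.factorial_pos J)),
    (fact_le y J b).trans (Nat.pow_le_pow_right two_pos hAe), fun E => ?_⟩
  obtain ⟨z, hz⟩ := hint E.factorial E.factorial_pos
  have hdv : ∀ p : ℕ, p.Prime → ∀ j : ℕ, p ^ j ≤ E → ((p ^ j : ℕ) : ℤ) ∣ h.eval z :=
    fun p hp j hj => (Int.natCast_dvd_natCast.2 (Nat.dvd_factorial (pow_pos hp.pos j) hj)).trans hz
  have hc2 : -(c / 2) ≤ 0 := by linarith
  have hε0 : (0 : ℝ) ≤ (1 / 2) ^ L := by positivity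
  have hε1 : (1 / 2 : ℝ) ^ L ≤ 1 := pow_le_one₀ (by norm_num) (by norm_num)
  have hΛ0 : 0 ≤ Λ := zero_le_one.trans hΛ
  have r0 : ∀ p : ℕ, (0 : ℝ) ≤ (p : ℝ) ^ (-(c / 2)) := fun p => by positivity
  have r1 : ∀ p : ℕ, 1 ≤ p → (p : ℝ) ^ (-(c / 2)) ≤ 1 := fun p hp =>
    Real.rpow_le_one_of_one_le_of_nonpos (by exact_mod_cast hp) hc2
  have t4 : 0 ≤ 1 - τ := le_trans (by positivity) t1
  have t5 : 1 - τ ≤ 1 := by linarith
  have hW1 : LW (DT (fun _ => 1 - τ) (fun _ => J) z) := DT_lw (fun _ => t4) fun _ => t5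
  have hzz : ∀ p : ℕ, ∃ z : ℤ, p.Prime → y < p → MR h p (ee p) E z := fun p => by
    by_cases hp : p.Prime ∧ y < p
    · obtain ⟨z, hz⟩ := (ω2 p hp.1 hp.2).2.2.2.2.2 E
      exact ⟨z, fun _ _ => hz⟩
    · exact ⟨0, fun a b => absurd ⟨a, b⟩ hp⟩
  choose zz hzz using hzz
  have hW2 : LW (DO (fun p => min 1 ((p : ℝ) ^ (-c₀))) E zz ω) :=
    DO_lw (fun p => by positivity) (fun p => min_le_left _ _) ω1 ω3
  have hW : LW (DN y (DT (fun _ => 1 - τ) (fun _ => J) z)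
      (DO (fun p => min 1 ((p : ℝ) ^ (-c₀))) E zz ω)) := DN_lw hW1 hW2
  have hD : ∀ p : ℕ, p.Prime → p ≤ y → ∀ i, J < i → ∀ n,
      DN y (DT (fun _ => 1 - τ) (fun _ => J) z)
        (DO (fun p => min 1 ((p : ℝ) ^ (-c₀))) E zz ω) p i n = 0 := by
    intro p _ hp i hi n
    rw [DN, if_pos hp]
    cases i with
    | zero => omega
    | succ i => exact if_neg (not_lt.2 (Nat.le_of_lt_succ hi))
  have s1 := prod_sec (h := h) hW (P := fun p => p ≤ y) (ξ := τ * Λ) (E := E) (by positivity) hε0 hε1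
    fun p hp hy j a hj ha => by
      have e1 : (p : ℝ) ^ (-(c / 2)) ≤ 1 - τ :=
        (Real.rpow_le_rpow_of_nonpos two_pos (by exact_mod_cast hp.two_le) hc2).trans t1
      have e2 := (hloc h hk le_rfl (fun _ => 1 - τ) (fun _ => J) z (fun _ => t4) (fun _ => t5) p hp
        e1 j a (hdv p hp j hj) ha).1
      rw [sub_sub_cancel] at e2
      rw [DN_tm hW1 hW2 hp hy]
      have e3 := r0 p
      refine e2.mono (by positivity) ?_ (pow_nonneg t4 J) t3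
      have e4 := mul_le_mul_of_nonneg_left (r1 p hp.one_le) (mul_nonneg t0 hΛ0)
      linarith
  have hl2 := fun (p : ℕ) (hp : p.Prime) (hy : y < p) => by
    have p1 : (1 : ℝ) ≤ p := by exact_mod_cast hp.one_le
    have a1 : (p : ℝ) ^ (-c₀) ≤ (p : ℝ) ^ (-c') := Real.rpow_le_rpow_of_exponent_le p1 (by linarith)
    have a2 := (hy' p hy).2.2 1 one_pos
    rw [pow_one] at a2
    have a3 : (p : ℝ) ^ (-(c' / 2)) ≤ 1 := Real.rpow_le_one_of_one_le_of_nonpos p1 (by linarith)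
    have a4 : (p : ℝ) ^ (-c₀) ≤ 1 := Real.rpow_le_one_of_one_le_of_nonpos p1 (by linarith)
    have a5 : (0 : ℝ) ≤ (p : ℝ) ^ (-c₀) := by positivity
    have a6 : (8 + 2 * B ^ 2) * (p : ℝ) ^ (-c₀) ≤ 1 := by nlinarith [sq_nonneg B]
    have a7 : |h.leadingCoeff| < p := by
      rw [Int.abs_eq_natAbs]
      exact_mod_cast (show h.leadingCoeff.natAbs < p by omega)
    obtain ⟨o1, o2, o3, o4, o5, -⟩ := ω2 p hp hy
    exact hbig h hk le_rfl _ hW p hp (fun p => min 1 ((p : ℝ) ^ (-c₀))) E zz ω (B ^ 2) (ee p) (ζ p)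
      (if_neg (not_le.2 hy)) (min_eq_right a4) (sq_nonneg B) a6 a7 o3 o4 o5 (hzz p hp hy) (ω1 p) o1 o2
  have hjE : ∀ p j : ℕ, p.Prime → p ^ j ≤ E → j ≤ E := fun p j hp hj =>
    (Nat.lt_pow_self hp.one_lt).le.trans hj
  have s2 := prod_sec (h := h) hW (P := fun p => y < p) (ξ := 0) (E := E) le_rfl hε0 hε1
    fun p hp hy j a hj ha => (hl2 p hp hy j a (hjE p j hp hj) ha).1.mono zero_le_one (by linarith)
      le_rfl hε0
  have s3 := prod_dec (h := h) hW (P := fun p => y < p) (c := c' / 2) (E := E)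
    fun p hp hy j a j0 hj ha => ((hl2 p hp hy j a (hjE p j hp hj) ha).2 j0).trans (by
      rw [← hce]
      refine le_trans (mul_le_mul_of_nonneg_right ?_ (by positivity)) ((hy' p hy).2.2 j j0)
      nlinarith [sq_nonneg B])
  obtain ⟨D, hDe⟩ : ∃ D, D = DN y (DT (fun _ => 1 - τ) (fun _ => J) z)
    (DO (fun p => min 1 ((p : ℝ) ^ (-c₀))) E zz ω) := ⟨_, rfl⟩
  rw [← hDe] at hW hD s1 s2 s3
  refine ⟨wT D (y.factorial ^ J) (2 ^ b), wT_wk hW _ _, sg_one hW Nat.one_le_two_pow hD,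
    fun q hq hE a ha => ?_⟩
  obtain ⟨q₁, q₂, rfl, hcp, hs, hr⟩ := smooth_rough y q hq
  have q1 : 0 < q₁ := Nat.pos_of_mul_pos_right hq
  have q2 : 0 < q₂ := Nat.pos_of_mul_pos_left hq
  have q3 : q₁ ≤ E := (Nat.le_mul_of_pos_right _ q2).trans hE
  have q4 : q₂ ≤ E := (Nat.le_mul_of_pos_left _ q1).trans hE
  obtain ⟨a₁, a₂, a1, a2, hS⟩ := sg_split (h := h) (R₂ := 2 ^ b) hW hD q1 q2 hcp hs hr ha
  rw [hS]
  have f1 : Sec (1 + η / 4) ((1 / 2) ^ L) (∑ d ∈ q₁.divisors, tm h D q₁ a₁ d) := by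
    refine (s1 q₁ q1 q3 hs a₁ a1).mono (by positivity) (pow_sec (by positivity) h1 ?_) hε0 le_rfl
    have e1 : (q₁.primeFactors.card : ℝ) ≤ y := by exact_mod_cast omega_le' hs
    exact (mul_le_mul_of_nonneg_left e1 (by positivity)).trans t2
  have f2 : Sec 1 ((1 / 2) ^ L) (∑ d ∈ q₂.divisors with d ≤ 2 ^ b, tm h D q₂ a₂ d) := by
    rcases le_or_gt q₂ (2 ^ b) with hq2 | hq2
    · rw [filter_true_of_mem fun d hd => (Nat.divisor_le hd).trans hq2]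
      simpa only [add_zero, one_pow] using s2 q₂ q2 q4 hr a₂ a2
    · refine Or.inl ((norm_sum_le _ _).trans ((sum_le_sum_of_subset_of_nonneg (filter_subset _ _)
        fun _ _ _ => norm_nonneg _).trans ((s3 q₂ q2 q4 hr a₂ a2).trans ?_)))
      have e1 : (q₂ : ℝ) ^ (-(c' / 2)) ≤ ((2 ^ b : ℕ) : ℝ) ^ (-(c' / 2)) :=
        Real.rpow_le_rpow_of_nonpos (by positivity) (by exact_mod_cast hq2.le)
          (neg_nonpos.2 (by positivity))
      linarith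
  exact (Sec.mul (by linarith) le_rfl hε0 hε1 f1 f2).fin (by linarith) h0.le h1 hε0

end Vale.Agent.P042.S
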