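import Vale.Agent.P042.O.Defs

/-! # P042 O/Lw (TASK; helper names end with _olw): the mixed weights.
`DO_lw`: `DT_lw` for each `z p`; the extra term as in `DM_lw` (V/Big: `sum_perm`); the bound at `i = 1` by unfolding `DT` (`bd_tdt`, `bl z p 0 n = 1`).  `DN_tm`: `Nat.sum_divisors_prime_pow`, `gw_powW`.
`DO_tm`: `DT_tm0`, `DT_tm`, `av_sub_qo` (S/QLocA), `av_shift` for `Gb … 0 = av (ph …)`; linearity of `av` by unfolding. -/

namespace Vale.Agent.P042.S

open Finset Polynomial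

theorem DO_lw {θ : ℕ → ℝ} {J : ℕ} {z : ℕ → ℤ} {ω : ℕ → ℤ → ℝ} (h0 : ∀ p, 0 ≤ θ p)
    (h1 : ∀ p, θ p ≤ 1) (hper : ∀ p, Function.Periodic (ω p) (p : ℤ))
    (hω : ∀ p : ℕ, p.Prime → ∑ t ∈ range p, ω p t = p ∧ ∀ n, 0 ≤ ω p n ∧ ω p n ≤ p) :
    LW (DO θ J z ω) := by
  have hD : ∀ p, LW (DT θ (fun _ => J) (z p)) := fun p => DT_lw h0 h1
  refine ⟨fun p n => ?_, fun p i n => ?_, fun p hp i n => ?_, fun p hp i n => ?_⟩
  · simp [DO, DT]
  · simp only [DO, (hD p).per p i n]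
    split_ifs with hi
    · rw [hi, pow_one, hper p n]
    · rfl
  · simp only [DO, sum_add_distrib, (hD p).mart p hp i n, zero_add]
    split_ifs with hi
    · obtain rfl : i = 0 := by omega
      have h3 := sum_perm (f := fun n => ((ω p n : ℝ) : ℂ)) (q := p)
        (fun n => by simp only [hper p n]) (m := 1) isCoprime_one_left n
      have h4 : ∑ t ∈ range p, ω p (n + 1 * t) = ∑ t ∈ range p, ω p t := by exact_mod_cast h3
      simp only [pow_zero, Nat.cast_one, ← mul_sum, sum_sub_distrib, h4, (hω p hp).1]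
      simp
    · simp
  · rw [DO]
    split_ifs with hi
    · subst hi
      have h3 : (1 : ℝ) ≤ p := by exact_mod_cast hp.one_le
      have h4 := (hω p hp).2 n
      have h5 := bd_tdt (z := z p) p 1 n
      have h6 : bl (z p) p 0 n = 1 := by simp [bl]
      have a0 := h0 p
      have a1 := h1 p
      rw [pow_one] at h5 ⊢
      have h7 : |DT θ (fun _ => J) (z p) p 1 n| ≤ θ p * p := by
        simp only [DT]
        split_ifs
        · rw [zero_add, pow_one, h6, abs_mul, abs_of_nonneg a0]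
          exact mul_le_mul_of_nonneg_left (abs_le.2 ⟨by linarith [h5.1], by linarith [h5.2]⟩) a0
        · rw [abs_zero]
          positivity
      have h8 : |(1 - θ p) * (ω p n - 1)| ≤ (1 - θ p) * p := by
        rw [abs_mul, abs_of_nonneg (sub_nonneg.2 a1)]
        exact mul_le_mul_of_nonneg_left (abs_le.2 ⟨by linarith [h4.1], by linarith [h4.2]⟩)
          (sub_nonneg.2 a1)
      refine (abs_add_le _ _).trans ?_
      linarith
    · rw [add_zero]
      exact (hD p).bd p hp i n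

theorem DN_lw {y : ℕ} {D₁ D₂ : ℕ → ℕ → ℤ → ℝ} (h1 : LW D₁) (h2 : LW D₂) : LW (DN y D₁ D₂) := by
  refine ⟨fun p n => ?_, fun p i => ?_, fun p hp i n => ?_, fun p hp i n => ?_⟩ <;>
    rw [DN] <;> split_ifs with hy
  exacts [h1.zero p n, h2.zero p n, h1.per p i, h2.per p i, h1.mart p hp i n, h2.mart p hp i n,
    h1.bd p hp i n, h2.bd p hp i n]

theorem DN_tm {h : ℤ[X]} {y : ℕ} {D₁ D₂ : ℕ → ℕ → ℤ → ℝ} (h1 : LW D₁) (h2 : LW D₂) {p : ℕ}
    (hp : p.Prime) (hy : p ≤ y) (j : ℕ) (a : ℤ) :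
    ∑ d ∈ (p ^ j).divisors, tm h (DN y D₁ D₂) (p ^ j) a d =
      ∑ d ∈ (p ^ j).divisors, tm h D₁ (p ^ j) a d := by
  simp only [Nat.sum_divisors_prime_pow hp, tm, gw_powW h1 hp, gw_powW (DN_lw h1 h2) hp, DN,
    if_pos hy]

theorem DO_tm {h : ℤ[X]} {θ : ℕ → ℝ} {J : ℕ} {z : ℕ → ℤ} {ω : ℕ → ℤ → ℝ} {p j : ℕ} (hp : p.Prime)
    (hj : j ≤ J) (a : ℤ) :
    (av (p ^ j) fun n => DO θ J z ω p 0 n * ph h a (p ^ j) n) = Gb h (z p) a p j 0 ∧
    (0 < j → (av (p ^ j) fun n => DO θ J z ω p 1 n * ph h a (p ^ j) n) =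
      (θ p : ℂ) * (Gb h (z p) a p j 1 - Gb h (z p) a p j 0) + (1 - (θ p : ℂ)) *
        ((av (p ^ j) fun n => ω p n * ph h a (p ^ j) n) - Gb h (z p) a p j 0)) ∧
    ∀ i, i + 2 ≤ j → (av (p ^ j) fun n => DO θ J z ω p (i + 2) n * ph h a (p ^ j) n) =
      (θ p : ℂ) ^ (i + 2) * (Gb h (z p) a p j (i + 2) - Gb h (z p) a p j (i + 1)) := by
  refine ⟨?_, fun h0 => ?_, fun i hi => ?_⟩
  · simpa [DO] using DT_tm0 (h := h) (θ := θ) (J := fun _ => J) (z := z p) p j a
  · have h1 := DT_tm (h := h) (θ := θ) (J := fun _ => J) (z := z p) hp h0 a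
    have h2 := DT_tm0 (h := h) (θ := θ) (J := fun _ => J) (z := z p) p j a
    rw [if_pos (h0.trans_le hj), zero_add, pow_one] at h1
    rw [← h1, ← h2]
    simp only [av, ← sub_div, ← sum_sub_distrib, ← mul_div_assoc, mul_sum, ← add_div,
      ← sum_add_distrib]
    refine congrArg (· / _) (sum_congr rfl fun n _ => ?_)
    have e : DT θ (fun _ => J) (z p) p 0 n = 1 := rfl
    rw [DO, if_pos rfl, e]
    push_cast
    ring
  · have h1 := DT_tm (h := h) (θ := θ) (J := fun _ => J) (z := z p) (i := i + 1) hp hi a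
    rw [if_pos (lt_of_lt_of_le hi hj)] at h1
    simpa [DO] using h1

end Vale.Agent.P042.S
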