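import Vale.Agent.P042.O.Lift

/-! # P042 O/Rat (TASK; helper names end with _ora): a rational root of odd multiplicity.
`q = C (r.den : ℤ) * X - C r.num` is irreducible in `ℤ[X]` (`irreducible_of_degree_eq_one_of_isRelPrime_coeff`, `Rat.reduced`, or `IsPrimitive.irreducible_iff_irreducible_map_fraction_map`); `h ≠ 0`; `h = q ^ e * g`, `q ∤ g` (`WfDvdMonoid.max_power_factor`); `bez_om` gives `A q + B g = C Δ`, so `g (r) ≠ 0` in `ℚ` and the multiplicity over `ℚ` is `e` (`q.map = C den * (X - C r)`, `rootMultiplicity_mul`, `rootMultiplicity_X_sub_C_pow`).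
For `p > natAbs Δ + den` take `ρ ∈ ℤ` with `p ∣ den ρ - num` (`den` is prime to `p`), `mr_of` with `N = 1`, `mult_of`, `ζ = -1`, `Odd.neg_one_pow`, `Odd.pos`. -/

namespace Vale.Agent.P042.S

open Finset Polynomial

theorem irr_ora (r : ℚ) : Irreducible (C (r.den : ℤ) * X + C (-r.num) : ℤ[X]) := by
  have hd : (r.den : ℤ) ≠ 0 := Int.natCast_ne_zero.2 r.den_nz
  refine irreducible_of_degree_eq_one_of_isRelPrime_coeff (degree_linear hd) ?_
  have h0 : (C (r.den : ℤ) * X + C (-r.num) : ℤ[X]).coeff 0 = -r.num := by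
    rw [coeff_add, coeff_C_mul, coeff_X_zero, mul_zero, zero_add, coeff_C_zero]
  have h1 : (C (r.den : ℤ) * X + C (-r.num) : ℤ[X]).coeff 1 = r.den := by
    rw [coeff_add, coeff_C_mul, coeff_X_one, mul_one, coeff_C_of_ne_zero one_ne_zero, add_zero]
  rw [h0, h1]
  have h2 : Int.gcd r.num r.den = 1 := r.reduced
  exact (Int.isCoprime_iff_gcd_eq_one.2 h2).neg_left.isRelPrime

theorem map_ora (r : ℚ) : (C (r.den : ℤ) * X + C (-r.num) : ℤ[X]).map (Int.castRingHom ℚ) =
    C (r.den : ℚ) * (X - C r) := by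
  rw [Polynomial.map_add, Polynomial.map_mul, map_X, map_C, map_C, mul_sub, ← C_mul,
    Rat.den_mul_eq_num, map_natCast (Int.castRingHom ℚ), map_neg, eq_intCast, C_neg,
    sub_eq_add_neg]

theorem om_rat {h : ℤ[X]} {r : ℚ} (hr : Odd ((h.map (Int.castRingHom ℚ)).rootMultiplicity r)) :
    OM h := by
  have h0 : h ≠ 0 := by
    rintro rfl
    rw [Polynomial.map_zero, rootMultiplicity_zero] at hr
    exact absurd hr (by decide)
  have hq := irr_ora r
  have hm := map_ora r
  have hde : derivative (C (r.den : ℤ) * X + C (-r.num) : ℤ[X]) = C (r.den : ℤ) := by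
    rw [derivative_add, derivative_C_mul, derivative_X, mul_one, derivative_C, add_zero]
  have hev : ∀ z : ℤ, (C (r.den : ℤ) * X + C (-r.num) : ℤ[X]).eval z = r.den * z + -r.num :=
    fun z => by rw [eval_add, eval_mul, eval_C, eval_X, eval_C]
  generalize (C (r.den : ℤ) * X + C (-r.num) : ℤ[X]) = q at hq hm hde hev
  obtain ⟨e, g, h1, rfl⟩ := WfDvdMonoid.max_power_factor h0 hq
  obtain ⟨A, B, Δ, h2, h3⟩ := bz_ofa hq h1
  have hd : (r.den : ℚ) ≠ 0 := Nat.cast_ne_zero.2 r.den_nz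
  have h4 : ¬ (C (r.den : ℚ) ^ e * g.map (Int.castRingHom ℚ)).IsRoot r := fun h => by
    have h5 := congrArg (fun f : ℤ[X] => (f.map (Int.castRingHom ℚ)).eval r) h3
    rw [IsRoot.def, eval_mul, eval_pow, eval_C, mul_eq_zero, or_iff_right (pow_ne_zero _ hd)] at h
    simp only [Polynomial.map_add, Polynomial.map_mul, hm, eval_add, eval_mul, eval_sub, eval_X,
      eval_C, sub_self, mul_zero, h, zero_add, map_C] at h5
    exact h2 (Int.cast_eq_zero.1 h5.symm)
  have h5 := rootMultiplicity_mul_X_sub_C_pow (a := r) (n := e)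
    (p := C (r.den : ℚ) ^ e * g.map (Int.castRingHom ℚ))
    fun h => h4 (by rw [h]; exact IsRoot.def.2 eval_zero)
  rw [rootMultiplicity_eq_zero h4, zero_add] at h5
  rw [Polynomial.map_mul, Polynomial.map_pow, hm, mul_pow, mul_right_comm, h5] at hr
  refine ⟨Δ.natAbs + r.den, fun p hp hl => ?_⟩
  have hP : Prime (p : ℤ) := Nat.prime_iff_prime_int.1 hp.out
  have h6 : ¬ (p : ℤ) ∣ (r.den : ℤ) := fun h =>
    absurd (Nat.le_of_dvd r.den_pos (Int.natCast_dvd_natCast.1 h)) (by omega)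
  obtain ⟨a, b, hab⟩ := hP.coprime_iff_not_dvd.2 h6
  have h7 : (p : ℤ) ∣ q.eval (b * r.num) :=
    ⟨-(a * r.num), by rw [hev]; linear_combination r.num * hab⟩
  have h8 : ¬ (p : ℤ) ∣ g.eval (b * r.num) := fun h => by
    have h9 : (p : ℤ) ∣ Δ := by
      have := congrArg (eval (b * r.num)) h3
      rw [eval_add, eval_mul, eval_mul, eval_C] at this
      rw [← this]
      exact dvd_add (h7.mul_left _) (h.mul_left _)
    exact absurd (Nat.le_of_dvd (Int.natAbs_pos.2 h2) (Int.natCast_dvd.1 h9)) (by omega)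
  have he := mult_of (mr_of (e := e) (N := 1) hp.out (by rwa [pow_one])
    (by rwa [hde, eval_C]) h8)
  refine ⟨((b * r.num : ℤ) : ZMod p), -1, ?_, ?_⟩
  · rw [he]
    exact hr.pos
  · rw [he]
    exact hr.neg_one_pow

end Vale.Agent.P042.S
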